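import Mathlib

/-!
Shared definitions for the construction of ultraflat Littlewood polynomials.
-/

noncomputable section

namespace Vale.Agent.P110.Full

open Complex

/-- The character `x ↦ exp (2 π i x)`. -/
def ch (x : ℝ) : ℂ := Complex.exp ((2 * Real.pi * x : ℝ) * Complex.I)

/-- The trigonometric polynomial with real coefficients `c`. -/
def poly {N : ℕ} (c : Fin N → ℝ) (θ : ℝ) : ℂ :=
  ∑ k : Fin N, (c k : ℂ) * ch ((k : ℕ) * θ)

/-- Tiling data: `ι` indexes the runs of positive orientation; run `r` occupies the cells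
`a r + i`, `i < w r`, of `ZMod P` and its mirror image the cells `-(a r + i) - 1`; all cells are
covered exactly once. `time r` is the time slot of the run and `β r` its phase. -/
structure Runs where
  P : ℕ
  G : ℕ
  P_pos : 0 < P
  G_pos : 0 < G
  ι : Type
  fintype : Fintype ι
  a : ι → ℤ
  w : ι → ℕ
  w_pos : ∀ r, 0 < w r
  time : ι → Fin G
  β : ι → ℝ
  cover : Function.Bijective fun x : (Σ r : ι, Fin (w r)) × Bool =>
    if x.2 then ((a x.1.1 + (x.1.2 : ℕ) : ℤ) : ZMod P)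
    else ((-(a x.1.1 + (x.1.2 : ℕ)) - 1 : ℤ) : ZMod P)

/-- The coefficient that a time slot produces at integer position `k` and free phase `X`. -/
def Runs.slot (D : Runs) (g : Fin D.G) (k : ℤ) (X : ℝ) : ℝ :=
  haveI := D.fintype
  ∑ r : D.ι, if D.time r = g then
    2 * Real.sqrt ((D.G : ℝ) * D.w r / D.P) *
      Real.cos (2 * Real.pi * (D.β r - D.a r * k / D.P - D.w r * X))
    else 0

/-- Every possible coefficient is at most `1 + ε` in absolute value. -/
def Runs.Bounded (D : Runs) (ε : ℝ) : Prop := ∀ g k X, |D.slot g k X| ≤ 1 + ε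

/-- A finite spectral model of a function on `T^R` with values nearly in `{-1, 1}`. -/
structure Square (ε : ℝ) where
  R : ℕ
  two_le : 2 ≤ R
  n : ℕ
  n_pos : 0 < n
  v : Fin n → Fin R → ℤ
  coef : Fin n → ℂ
  coef_ne : ∀ i, coef i ≠ 0
  primitive : ∀ i, ∃ ξ : Fin R → ℤ, ∑ l, v i l * ξ l = 1
  distinct : ∀ i j, i ≠ j → v i ≠ v j ∧ v i ≠ -v j
  bound : ∀ φ : Fin R → ℝ, |∑ i, 2 * (coef i * ch (∑ l, (v i l : ℝ) * φ l)).re| ≤ 1
  energy : 1 - ε ≤ ∑ i, 2 * ‖coef i‖ ^ 2
  small : ∀ i, ‖coef i‖ ≤ ε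

/-- An owner of each of the `2 * q` blocks, antisymmetric under reflection. -/
def AntiOwner {I : Type} (q : ℕ) (o : ZMod (2 * q) → I × Bool) : Prop :=
  ∀ B, o (-1 - B) = ((o B).1, !(o B).2)

/-- Groups `(c, t)` all of whose classes start in blocks owned by that class. -/
def Good {I : Type} {R : ℕ} (q W : ℕ) (v : I → Fin R → ℤ) (w : I → ℕ)
    (o : ZMod (2 * q) → I × Bool) (x : (Fin R → ZMod (2 * q)) × Fin W) : Prop :=
  ∀ i, o ((∑ l, (v i l : ZMod (2 * q)) * x.1 l) + ((w i * (x.2 : ℕ) / W : ℕ) : ZMod (2 * q))) =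
    (i, true)

/-- The group `x` puts a run of class `i` at slot `s` of `ZMod (2 * q * W)`. -/
def StartsAt {I : Type} {R : ℕ} (q W : ℕ) (v : I → Fin R → ℤ) (w : I → ℕ)
    (i : I) (x : (Fin R → ZMod (2 * q)) × Fin W) (s : ZMod (2 * q * W)) : Prop :=
  ((W : ℤ) * ∑ l, v i l * ((x.1 l).val : ℤ) + (w i * (x.2 : ℕ) : ℕ) : ℤ) = (s : ZMod (2 * q * W))

end Vale.Agent.P110.Full
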