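import Mathlib
import Vale.Agent.P110.Full.Defs

/-!
The statements proved by the modules of the construction of ultraflat Littlewood polynomials.
-/

noncomputable section

namespace Vale.Agent.P110.Full

/-- Module Spencer: six standard deviations, any `n ≤ m`. -/
def SpencerStatement : Prop :=
  ∃ C : ℝ, 0 < C ∧ ∀ n m : ℕ, n ≤ m → ∀ A : Fin m → Fin n → ℝ, (∀ i j, |A i j| ≤ 1) →
    ∃ χ : Fin n → ℝ, (∀ j, χ j = 1 ∨ χ j = -1) ∧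
      ∀ i, |∑ j, A i j * χ j| ≤ C * Real.sqrt (n * Real.log (2 * m / n))

/-- Module Rounding: nearly extreme coefficients can be rounded to signs. -/
def RoundingStatement : Prop :=
  ∀ ε > (0 : ℝ), ∃ δ > (0 : ℝ), ∃ N₀ : ℕ, ∀ N ≥ N₀, ∀ c : Fin N → ℝ, (∀ k, |c k| ≤ 1) →
    ∑ k, (1 - c k ^ 2) ≤ δ * N →
    ∃ y : Fin N → ℝ, (∀ k, y k = 1 ∨ y k = -1) ∧
      ∀ θ : ℝ, ‖poly y θ - poly c θ‖ ≤ ε * Real.sqrt N

/-- Module Profile: a phase profile whose oscillatory integral has bounded, explicit size. -/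
def ProfileStatement : Prop :=
  ∀ ε > (0 : ℝ), ∃ (H : ℝ → ℝ) (ρ Λ : ℝ → ℝ) (ζ : ℂ) (M₀ : ℝ),
    Continuous H ∧ H 0 = 0 ∧ H 1 = 1 ∧ (∀ x ∈ Set.Icc (0 : ℝ) 1, H x ∈ Set.Icc (0 : ℝ) 1) ∧
    (∀ κ, |ρ κ| ≤ 1 + ε) ∧ (∀ κ ∉ Set.Ioo (0 : ℝ) 1, ρ κ = 0) ∧ ‖ζ‖ = 1 ∧
    ∀ M ≥ M₀, ∀ κ : ℝ,
      ‖(Real.sqrt M : ℂ) * (∫ x in (0 : ℝ)..1, ch (M * ((∫ y in (0 : ℝ)..x, H y) - κ * x))) -
        (ρ κ : ℂ) * ζ * ch (M * Λ κ)‖ ≤ ε

/-- Module Linear: an oscillatory integral with an affine frequency of slope `σ`. -/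
def LinearPhaseStatement : Prop :=
  ∃ C : ℝ, 0 < C ∧ ∀ (σ b p q : ℝ), p ≤ q → σ ≠ 0 →
    ‖∫ x in p..q, ch (σ * x ^ 2 / 2 + b * x)‖ ≤ C / Real.sqrt |σ|

/-- Module Target: tiling data with bounded slots gives flat polynomials with coefficients in
`[-1, 1]`. -/
def TargetStatement : Prop :=
  ∀ η > (0 : ℝ), ∃ ε > (0 : ℝ), ∀ D : Runs, D.Bounded ε →
    ∃ N₀ : ℕ, ∀ N ≥ N₀, ∃ c : Fin N → ℝ, (∀ k, |c k| ≤ 1) ∧
      ∀ θ : ℝ, |‖poly c θ‖ - Real.sqrt N| ≤ η * Real.sqrt N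

/-- Module SquareWave. -/
def SquareStatement : Prop := ∀ ε > (0 : ℝ), Nonempty (Square ε)

/-- Module Owner: random owners give, on average over the starts, the expected number of
groups. -/
def OwnerStatement : Prop :=
  ∀ (I : Type) [Fintype I] [DecidableEq I] (R : ℕ), 2 ≤ R → ∀ (v : I → Fin R → ℤ),
    (∀ i, ∃ ξ : Fin R → ℤ, ∑ l, v i l * ξ l = 1) →
    (∀ i j, i ≠ j → v i ≠ v j ∧ v i ≠ -v j) →
    ∀ (w : I → ℕ) (W : ℕ), 0 < W → (∀ i, 0 < w i ∧ w i ∣ W) →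
    ∀ p : I → ℝ, (∀ i, 0 < p i) → 2 * ∑ i, p i = 1 →
    ∀ η > (0 : ℝ), ∃ q₀ : ℕ, ∀ q ≥ q₀, q.Prime →
      ∃ o : ZMod (2 * q) → I × Bool, AntiOwner q o ∧
        (∀ i, |(Nat.card {B // o B = (i, true)} : ℝ) - 2 * q * p i| ≤ η * (2 * q)) ∧
        ∀ i, (∑ᶠ B : {B // o B = (i, true)}, ∑ l ∈ Finset.range (W / w i),
            |(Nat.card {x : (Fin R → ZMod (2 * q)) × Fin W // Good q W v w o x ∧
              StartsAt q W v w i x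
                (((W : ℤ) * ((B : ZMod (2 * q)).val : ℤ) + (w i * l : ℕ) : ℤ) :
                  ZMod (2 * q * W))} : ℝ) -
              w i * (2 * q : ℝ) ^ (R - 1) * ∏ j ∈ Finset.univ.erase i, p j|) ≤
          η * ((2 * q : ℝ) * ((W / w i : ℕ) : ℝ) *
            (w i * (2 * q : ℝ) ^ (R - 1) * ∏ j ∈ Finset.univ.erase i, p j))

/-- Module Moduli: pairwise coprime moduli of prescribed relative size. -/
def ModuliStatement : Prop :=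
  ∀ (n : ℕ) (t : Fin n → ℝ), (∀ i, 0 < t i) → ∀ η > (0 : ℝ), ∀ L : ℕ, 0 < L →
    ∃ S₀ : ℝ, ∀ S ≥ S₀, ∃ M : Fin n → ℕ,
      (∀ i, 0 < M i ∧ M i ≡ 1 [MOD L] ∧ (1 - η) * (S * t i) ≤ M i ∧ (M i : ℝ) ≤ S * t i) ∧
      ∀ i j, i ≠ j → (M i).Coprime (M j)

/-- Module Gauss: a quadratic phase is a combination of all characters with equal weights. -/
def GaussStatement : Prop :=
  ∀ (n : ℕ) (b : ℤ), Odd n → Int.gcd b n = 1 →
    ∃ β : Fin n → ℝ, ∀ k : ℤ,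
      ch ((b : ℝ) * k ^ 2 / n) =
        (Real.sqrt n : ℂ)⁻¹ * ∑ j : Fin n, ch (β j - (j : ℕ) * k / n)

/-- Module Assemble: tiling data with arbitrarily well bounded slots. -/
def TilingStatement : Prop := ∀ ε > (0 : ℝ), ∃ D : Runs, D.Bounded ε

/-- The full answer: ultraflat real Littlewood polynomials exist at all large lengths. -/
def UltraflatStatement : Prop :=
  ∀ c > (0 : ℝ), ∃ N₀ : ℕ, ∀ N ≥ N₀, ∃ y : Fin N → ℝ, (∀ k, y k = 1 ∨ y k = -1) ∧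
    ∀ z : ℂ, ‖z‖ = 1 →
      (1 - c) * Real.sqrt N ≤ ‖∑ k : Fin N, (y k : ℂ) * z ^ (k : ℕ)‖ ∧
      ‖∑ k : Fin N, (y k : ℂ) * z ^ (k : ℕ)‖ ≤ (1 + c) * Real.sqrt N

end Vale.Agent.P110.Full
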