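import Mathlib
import Vale.Agent.P110.Full.Statements

/-!
Composition: tiling data, the analytic target and rounding give ultraflat polynomials.
-/

noncomputable section

namespace Vale.Agent.P110.Full

open Finset

theorem ch_pow (θ : ℝ) (k : ℕ) : ch θ ^ k = ch ((k : ℝ) * θ) := by
  rw [ch, ch, ← Complex.exp_nat_mul]
  congr 1
  push_cast
  ring

theorem exists_eq_ch {z : ℂ} (hz : ‖z‖ = 1) : ∃ θ : ℝ, z = ch θ := by
  refine ⟨z.arg / (2 * Real.pi), ?_⟩
  have h := Complex.norm_mul_exp_arg_mul_I z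
  rw [hz, Complex.ofReal_one, one_mul] at h
  rw [ch, mul_div_cancel₀ _ (by positivity : (2 * Real.pi : ℝ) ≠ 0)]
  exact h.symm

theorem ch_add (x y : ℝ) : ch (x + y) = ch x * ch y := by
  rw [ch, ch, ch, ← Complex.exp_add]
  congr 1
  push_cast
  ring

theorem conj_ch (x : ℝ) : (starRingEnd ℂ) (ch x) = ch (-x) := by
  rw [ch, ch, ← Complex.exp_conj]
  congr 1
  simp [map_ofNat]

theorem norm_ch (x : ℝ) : ‖ch x‖ = 1 := Complex.norm_exp_ofReal_mul_I _

/-- Parseval on the `N`-th roots of unity, as a lower bound. -/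
theorem sum_sq_of_flat {N : ℕ} (hN : 0 < N) (c : Fin N → ℝ) {η : ℝ} (hη : η ≤ 1)
    (h : ∀ θ : ℝ, |‖poly c θ‖ - Real.sqrt N| ≤ η * Real.sqrt N) :
    (1 - η) ^ 2 * N ≤ ∑ k, c k ^ 2 := by
  have horth : ∀ k l : Fin N, ∑ j : Fin N, ch (((k : ℕ) : ℝ) * ((j : ℕ) / N)) *
      ch (-(((l : ℕ) : ℝ) * ((j : ℕ) / N))) = if k = l then (N : ℂ) else 0 := by
    intro k l
    set ζ := ch (((k : ℕ) - (l : ℕ) : ℝ) / N) with hζ
    have hterm : ∀ j : Fin N, ch (((k : ℕ) : ℝ) * ((j : ℕ) / N)) *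
        ch (-(((l : ℕ) : ℝ) * ((j : ℕ) / N))) = ζ ^ (j : ℕ) := fun j => by
      rw [hζ, ch_pow, ← ch_add]
      congr 1
      ring
    simp only [hterm]
    rw [Fin.sum_univ_eq_sum_range (fun j => ζ ^ j) N]
    split_ifs with hkl
    · subst hkl
      simp [hζ, ch]
    · have hζN : ζ ^ N = 1 := by
        rw [hζ, ch_pow, mul_div_cancel₀ _ (Nat.cast_ne_zero.2 hN.ne'), ch]
        rw [Complex.exp_eq_one_iff]
        exact ⟨((k : ℕ) : ℤ) - ((l : ℕ) : ℤ), by push_cast; ring⟩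
      have hζ1 : ζ ≠ 1 := by
        intro h1
        rw [hζ, ch, Complex.exp_eq_one_iff] at h1
        obtain ⟨m, hm⟩ := h1
        have h2 := congrArg Complex.im hm
        simp at h2
        have h3 : (((k : ℕ) : ℝ) - ((l : ℕ) : ℝ)) / N = m := by
          have h4 : (2 * Real.pi) * ((((k : ℕ) : ℝ) - ((l : ℕ) : ℝ)) / N - m) = 0 := by linarith
          have := (mul_eq_zero.1 h4).resolve_left (by positivity)
          linarith
        rw [div_eq_iff (Nat.cast_ne_zero.2 hN.ne')] at h3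
        have h5 : ((k : ℕ) : ℤ) - ((l : ℕ) : ℤ) = m * N := by exact_mod_cast h3
        have hk := k.2; have hl := l.2
        have : m = 0 := by
          by_contra hm0
          have : (1 : ℤ) ≤ |m| := Int.one_le_abs hm0
          have h6 : |((k : ℕ) : ℤ) - ((l : ℕ) : ℤ)| < N := abs_sub_lt_iff.2 ⟨by omega, by omega⟩
          rw [h5, abs_mul, Nat.abs_cast] at h6
          nlinarith
        rw [this, zero_mul, sub_eq_zero] at h5
        exact hkl (Fin.ext (by exact_mod_cast h5))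
      rw [geom_sum_eq hζ1, hζN]
      simp
  have hpar : (N : ℂ) * ((∑ k, c k ^ 2 : ℝ) : ℂ) =
      ∑ j : Fin N, ((‖poly c ((j : ℕ) / N)‖ ^ 2 : ℝ) : ℂ) := by
    have h1 : ∀ θ, ((‖poly c θ‖ ^ 2 : ℝ) : ℂ) = ∑ k, ∑ l, (c k : ℂ) * (c l : ℂ) *
        (ch (((k : ℕ) : ℝ) * θ) * ch (-(((l : ℕ) : ℝ) * θ))) := by
      intro θ
      rw [← Complex.normSq_eq_norm_sq, ← Complex.mul_conj, poly, map_sum, Finset.sum_mul_sum]
      refine Finset.sum_congr rfl fun k _ => Finset.sum_congr rfl fun l _ => ?_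
      rw [map_mul, Complex.conj_ofReal, conj_ch]
      ring
    simp only [h1]
    rw [Finset.sum_comm]
    push_cast
    rw [Finset.mul_sum]
    refine Finset.sum_congr rfl fun k _ => ?_
    rw [Finset.sum_comm]
    simp_rw [← Finset.mul_sum, horth, mul_ite, mul_zero, Finset.sum_ite_eq, Finset.mem_univ,
      if_true]
    ring
  have hR : (N : ℝ) * ∑ k, c k ^ 2 = ∑ j : Fin N, ‖poly c ((j : ℕ) / N)‖ ^ 2 := by
    exact_mod_cast hpar
  have hlow : ∀ θ, (1 - η) ^ 2 * N ≤ ‖poly c θ‖ ^ 2 := fun θ => by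
    have h1 := (abs_le.1 (h θ)).1
    have h2 : (1 - η) * Real.sqrt N ≤ ‖poly c θ‖ := by linarith
    have h3 := pow_le_pow_left₀ (by
      exact mul_nonneg (by linarith) (Real.sqrt_nonneg _)) h2 2
    rwa [mul_pow, Real.sq_sqrt (Nat.cast_nonneg N)] at h3
  have hsum := Finset.sum_le_sum (s := Finset.univ) fun (j : Fin N) _ => hlow ((j : ℕ) / N)
  rw [Finset.sum_const, Finset.card_univ, Fintype.card_fin, nsmul_eq_mul, ← hR] at hsum
  exact le_of_mul_le_mul_left hsum (Nat.cast_pos.2 hN)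

theorem ultraflat_of (hR : RoundingStatement) (hT : TargetStatement) (hD : TilingStatement) :
    UltraflatStatement := by
  intro c hc
  obtain ⟨δ, hδ, N₁, hround⟩ := hR (c / 2) (by positivity)
  set η := min (min (c / 2) (δ / 2)) 1 with hη
  have hη0 : 0 < η := lt_min (lt_min (by positivity) (by positivity)) one_pos
  obtain ⟨ε, hε, htarget⟩ := hT η hη0
  obtain ⟨D, hD'⟩ := hD ε hε
  obtain ⟨N₂, hN₂⟩ := htarget D hD'
  refine ⟨max (max N₁ N₂) 1, fun N hN => ?_⟩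
  obtain ⟨d, hd, hflat⟩ := hN₂ N (le_trans (le_max_right _ _) (le_trans (le_max_left _ _) hN))
  have hN0 : 0 < N := lt_of_lt_of_le zero_lt_one (le_trans (le_max_right _ _) hN)
  have hsq := sum_sq_of_flat hN0 d (min_le_right _ _) hflat
  have henergy : ∑ k, (1 - d k ^ 2) ≤ δ * N := by
    rw [Finset.sum_sub_distrib, Finset.sum_const, Finset.card_univ, Fintype.card_fin,
      nsmul_eq_mul, mul_one]
    have hηδ : η ≤ δ / 2 := le_trans (min_le_left _ _) (min_le_right _ _)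
    nlinarith [sq_nonneg η, (Nat.cast_nonneg N : (0 : ℝ) ≤ N),
      mul_le_mul_of_nonneg_right hηδ (Nat.cast_nonneg N : (0 : ℝ) ≤ N)]
  obtain ⟨y, hy, hclose⟩ := hround N
    (le_trans (le_max_left _ _) (le_trans (le_max_left _ _) hN)) d hd henergy
  refine ⟨y, hy, fun z hz => ?_⟩
  obtain ⟨θ, rfl⟩ := exists_eq_ch hz
  have hp : ∑ k : Fin N, (y k : ℂ) * ch θ ^ (k : ℕ) = poly y θ :=
    Finset.sum_congr rfl fun k _ => by rw [ch_pow]
  rw [hp]
  have h1 := abs_le.1 (hflat θ)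
  have h2 := abs_le.1 ((abs_norm_sub_norm_le (poly y θ) (poly d θ)).trans (hclose θ))
  have hηc : η * Real.sqrt N ≤ c / 2 * Real.sqrt N :=
    mul_le_mul_of_nonneg_right (le_trans (min_le_left _ _) (min_le_left _ _)) (Real.sqrt_nonneg _)
  constructor <;> nlinarith [h1.1, h1.2, h2.1, h2.2]

end Vale.Agent.P110.Full
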