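import Mathlib
import Vale.Agent.P110.Full.Assembly.Gauss
import Vale.Agent.P110.Full.Assembly.Groups
import Vale.Agent.P110.Full.Assembly.Starts
import Vale.Agent.P110.Full.Assembly.Counts

/-!
Module Assemble: tiling data with arbitrarily well bounded slots.
-/

noncomputable section

namespace Vale.Agent.P110.Full

open Finset

/-- The square model with every class oriented positively along one direction `u`. -/
theorem exists_oriented {ε : ℝ} (S : Square ε) :
    ∃ (v : Fin S.n → Fin S.R → ℤ) (u : Fin S.R → ℤ) (w : Fin S.n → ℕ) (coef : Fin S.n → ℂ),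
      (∀ i, ∑ l, v i l * u l = w i) ∧ (∀ i, 0 < w i) ∧
      (∀ i, ∃ ξ : Fin S.R → ℤ, ∑ l, v i l * ξ l = 1) ∧
      (∀ i j, i ≠ j → v i ≠ v j ∧ v i ≠ -v j) ∧
      (∀ φ : Fin S.R → ℝ, |∑ i, 2 * (coef i * ch (∑ l, (v i l : ℝ) * φ l)).re| ≤ 1) ∧
      ∀ i, ‖coef i‖ = ‖S.coef i‖ := by
  classical
  have hv0 : ∀ i, S.v i ≠ 0 := fun i h => by
    obtain ⟨ξ, hξ⟩ := S.primitive i
    simp [h] at hξ
  obtain ⟨u, hu⟩ := exists_generic_vector S.v hv0
  set s : Fin S.n → ℤ := fun i => if 0 < ∑ l, S.v i l * u l then 1 else -1 with hs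
  have hss : ∀ i, s i = 1 ∨ s i = -1 := fun i => by simp only [hs]; split_ifs <;> simp
  set v : Fin S.n → Fin S.R → ℤ := fun i l => s i * S.v i l with hv
  have hpos : ∀ i, 0 < ∑ l, v i l * u l := fun i => by
    simp only [hv, mul_assoc, ← Finset.mul_sum, hs]
    split_ifs with h
    · simpa using h
    · have := hu i
      omega
  set coef : Fin S.n → ℂ := fun i =>
    if 0 < ∑ l, S.v i l * u l then S.coef i else (starRingEnd ℂ) (S.coef i) with hc
  refine ⟨v, u, fun i => (∑ l, v i l * u l).toNat, coef,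
    fun i => (Int.toNat_of_nonneg (hpos i).le).symm, fun i => Int.lt_toNat.2 (by simpa using hpos i),
    fun i => ?_, fun i j hij => ?_, fun φ => ?_, fun i => ?_⟩
  · obtain ⟨ξ, hξ⟩ := S.primitive i
    refine ⟨fun l => s i * ξ l, ?_⟩
    rw [← hξ]
    refine Finset.sum_congr rfl fun l _ => ?_
    rcases hss i with h | h <;> simp [hv, h]
  · obtain ⟨h1, h2⟩ := S.distinct i j hij
    have hneg : ∀ i, v i = S.v i ∨ v i = -S.v i := fun i => by
      rcases hss i with h | h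
      · exact Or.inl (funext fun l => by simp [hv, h])
      · exact Or.inr (funext fun l => by simp [hv, h])
    rcases hneg i with e | e <;> rcases hneg j with e' | e' <;> rw [e, e']
    · exact ⟨h1, h2⟩
    · exact ⟨h2, by rwa [neg_neg]⟩
    · exact ⟨fun h => h2 (by rw [← h, neg_neg]), fun h => h1 (neg_injective h)⟩
    · exact ⟨fun h => h1 (neg_injective h), fun h => h2 (neg_eq_iff_eq_neg.1 (by rwa [neg_neg] at h))⟩
  · refine le_of_eq_of_le ?_ (S.bound φ)
    congr 1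
    refine Finset.sum_congr rfl fun i _ => ?_
    simp only [hv, hc, hs, Int.cast_mul, mul_assoc, ← Finset.mul_sum]
    split_ifs with h
    · simp
    · rw [show ((-1 : ℤ) : ℝ) * ∑ l, (S.v i l : ℝ) * φ l = -∑ l, (S.v i l : ℝ) * φ l by simp,
        re_conj_mul_ch_neg]
  · simp only [hc]
    split_ifs <;> simp

set_option linter.unusedSimpArgs false in
/-- For a fixed oriented model, all slots are bounded by the two kinds of groups. -/
theorem exists_runs_of_model (hO : OwnerStatement) (hM : ModuliStatement) (hG : GaussStatement)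
    {N R : ℕ} (hN : 0 < N) (hR : 2 ≤ R) (v : Fin N → Fin R → ℤ) (u : Fin R → ℤ) (w : Fin N → ℕ)
    (hu : ∀ i, ∑ l, v i l * u l = w i) (hw0 : ∀ i, 0 < w i)
    (hp : ∀ i, ∃ ξ : Fin R → ℤ, ∑ l, v i l * ξ l = 1)
    (hd : ∀ i j, i ≠ j → v i ≠ v j ∧ v i ≠ -v j) (θ : Fin N → ℝ) (p : Fin N → ℝ)
    (hp0 : ∀ i, 0 < p i) (hps : 2 * ∑ i, p i = 1) {δ : ℝ} (hδ : 0 < δ) (hδ1 : δ ≤ 1 / 2) :
    ∃ amp : Fin N → ℝ, (∀ i, 0 ≤ amp i ∧ |amp i - Real.sqrt (p i)| ≤ 4 * δ) ∧
      ∀ c, (∀ φ : Fin R → ℝ,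
          |∑ i, 2 * amp i * (ch (θ i + ∑ l, (v i l : ℝ) * φ l)).re| ≤ c) →
        (∀ i, 2 * amp i ≤ c) → ∃ D : Runs, ∀ g k Y, |D.slot g k Y| ≤ c := by
  classical
  choose ξ hξ using hp
  choose A hA0 hA using exists_orthogonal v (fun i => ⟨ξ i, hξ i⟩) hd
  set W := 2 * ∏ i, w i with hWdef
  have hW : 0 < W := Nat.mul_pos two_pos (Finset.prod_pos fun i _ => hw0 i)
  have hw : ∀ i, 0 < w i ∧ w i ∣ W := fun i =>
    ⟨hw0 i, dvd_mul_of_dvd_right (Finset.dvd_prod_of_mem w (mem_univ i)) 2⟩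
  have hp1 : ∀ i, p i ≤ 1 := fun i => by
    linarith [Finset.single_le_sum (fun j _ => (hp0 j).le) (mem_univ i)]
  set Pp := ∏ i, p i with hPp
  have hPp0 : 0 < Pp := Finset.prod_pos fun i _ => hp0 i
  have hPpp : ∀ i, Pp ≤ p i := fun i => by
    rw [hPp, ← Finset.mul_prod_erase univ p (mem_univ i)]
    exact mul_le_of_le_one_right (hp0 i).le
      (Finset.prod_le_one (fun j _ => (hp0 j).le) fun j _ => hp1 j)
  have hN1 : (1 : ℝ) ≤ N := by exact_mod_cast hN
  set e := δ / (12 * (N : ℝ) ^ 2) with he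
  have he0 : 0 < e := by positivity
  have heδ : 12 * (N : ℝ) ^ 2 * e = δ := by rw [he]; field_simp
  have he1 : e ≤ δ := (le_mul_of_one_le_left he0.le (by nlinarith)).trans_eq heδ
  set η := e * Pp with hη
  have hη0 : 0 < η := mul_pos he0 hPp0
  have hηp : ∀ i, η ≤ e * p i := fun i => mul_le_mul_of_nonneg_left (hPpp i) he0.le
  have hηe : η ≤ e := (hηp ⟨0, hN⟩).trans (mul_le_of_le_one_right he0.le (hp1 _))
  obtain ⟨q₀, hq₀⟩ := hO (Fin N) R hR v (fun i => ⟨ξ i, hξ i⟩) hd w W hW hw p hp0 hps η hη0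
  obtain ⟨q, hqq, hq⟩ := Nat.exists_infinite_primes q₀
  have : NeZero q := ⟨hq.pos.ne'⟩
  obtain ⟨o, ho, hoK, hoN⟩ := hq₀ q hqq hq
  set μ : Fin N → ℝ := fun i =>
    w i * (2 * q : ℝ) ^ (R - 1) * ∏ j ∈ univ.erase i, p j with hμ
  have hqR : (0 : ℝ) < q := Nat.cast_pos.2 hq.pos
  have hμ0 : ∀ i, 0 < μ i := fun i => by
    have h1 : (0 : ℝ) < w i := Nat.cast_pos.2 (hw0 i)
    have h2 : 0 < ∏ j ∈ univ.erase i, p j := Finset.prod_pos fun j _ => hp0 j
    positivity
  set L := 2 * q * W * ∏ i, ∏ j, (if i = j then 1 else (∑ l, v i l * A j l).natAbs) with hL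
  have hL0 : 0 < L := Nat.mul_pos (by have := hq.pos; positivity)
    (Finset.prod_pos fun i _ => Finset.prod_pos fun j _ => by
      split_ifs with h
      · exact one_pos
      · exact Int.natAbs_pos.2 (hA j i h))
  obtain ⟨S₀, hS₀⟩ := hM N μ hμ0 η hη0 L hL0
  obtain ⟨J, hJ⟩ := exists_nat_ge (max S₀ 1)
  obtain ⟨M, hMp, hMc⟩ := hS₀ J ((le_max_left _ _).trans hJ)
  have hJ0 : (0 : ℝ) < J := lt_of_lt_of_le one_pos ((le_max_right _ _).trans hJ)
  have hmL : 2 * q * W ∣ L := dvd_mul_right _ _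
  have hm : ∀ i, (2 * q * W).Coprime (M i) := fun i => by
    have h := ((hMp i).2.1.of_dvd hmL).gcd_eq
    rw [Nat.gcd_one_left] at h
    exact Nat.Coprime.symm h
  have h1 : ((∏ i, M i : ℕ) : ZMod (2 * q * W)) = 1 := by
    rw [Nat.cast_prod]
    refine Finset.prod_eq_one fun i _ => ?_
    rw [← Nat.cast_one, ZMod.natCast_eq_natCast_iff]
    exact (hMp i).2.1.of_dvd hmL
  obtain ⟨B, b, β, hvB, hβ⟩ := exists_carrier hG v A hA0 L
    (dvd_trans ⟨q * W, by ring⟩ hmL) (fun i j hij => by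
      refine dvd_trans ?_ (dvd_mul_left _ _)
      refine dvd_trans ?_ (Finset.dvd_prod_of_mem _ (mem_univ i))
      refine dvd_trans ?_ (Finset.dvd_prod_of_mem _ (mem_univ j))
      rw [if_neg hij]) M (fun i => (hMp i).2.1) hMc
  obtain ⟨F, d, Φ, hΦ, hFcard, hT⟩ := exists_groups (fun i => St q W o w i)
    (fun i (y : {x : (Fin R → ZMod (2 * q)) × Fin W // Good q W v w o x} × Fin J) =>
      startOf hW v w hw o i y.1) M
  set G := F.card + ∑ i, d i with hGdef
  set U : ℝ := J * (2 * q : ℝ) ^ R * W * Pp with hU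
  have hU0 : 0 < U := by have : (0 : ℝ) < W := Nat.cast_pos.2 hW; positivity
  have hwR : ∀ i, (0 : ℝ) < w i := fun i => Nat.cast_pos.2 (hw0 i)
  have hdivc : ∀ i, ((W / w i : ℕ) : ℝ) = (W : ℝ) / w i := fun i =>
    Nat.cast_div (hw i).2 (hwR i).ne'
  have hUeq : ∀ i, U = p i * (2 * q * W : ℕ) * ((J : ℝ) * μ i) / w i := fun i => by
    have hw' := (hwR i).ne'
    rw [hU, hPp, ← Finset.mul_prod_erase univ p (mem_univ i),
      show R = R - 1 + 1 by omega, pow_succ]
    simp only [hμ, Nat.add_sub_cancel]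
    push_cast
    field_simp
  have he1' : e ≤ 1 / 2 := he1.trans hδ1
  have hcls := fun i => class_counts hW v w hw o J (M i) i (hμ0 i) (hp0 i) he0.le hη0.le (hηp i)
    hηe he1' (U := U) (by rw [hUeq i, hdivc]; push_cast; ring) (hMp i).2.2.1 (hMp i).2.2.2
    (hoK i) (hoN i)
  have hd' : ∀ i, (d i : ℝ) = (Fintype.card (St q W o w i) : ℝ) * M i - F.card := fun i => by
    rw [eq_sub_iff_add_eq, add_comm]
    exact_mod_cast (hT i).symm
  have hGU : |(G : ℝ) - U| ≤ δ * U := by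
    have hF : (F.card : ℝ) ≤ Fintype.card ({x : (Fin R → ZMod (2 * q)) × Fin W // Good q W v w o x} × Fin J) := Nat.cast_le.2 (Finset.card_le_univ F)
    have hF' : (Fintype.card ({x : (Fin R → ZMod (2 * q)) × Fin W // Good q W v w o x} × Fin J) : ℝ) ≤ F.card + Fintype.card (Fin N) * (3 * e * U) := by
      refine le_trans (Nat.cast_le.2 hFcard) ?_
      rw [Nat.cast_add, Nat.cast_sum]
      refine add_le_add le_rfl ?_
      refine le_trans (Finset.sum_le_sum fun i _ => (hcls i).2.2) (le_of_eq ?_)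
      rw [Finset.sum_const, Finset.card_univ, nsmul_eq_mul]
    have hGU := groups_close (I := Fin N) (by rw [Fintype.card_fin]; exact hN) hU0.le he0.le
      (Fintype.card ({x : (Fin R → ZMod (2 * q)) × Fin W // Good q W v w o x} × Fin J) : ℝ) (F.card : ℝ) (G : ℝ)
      (fun i => (Fintype.card (St q W o w i) : ℝ) * M i) (hcls ⟨0, hN⟩).2.1 hF hF'
      (fun i => (hcls i).1) (by rw [hGdef, Nat.cast_add, Nat.cast_sum]; simp only [hd'])
    rwa [Fintype.card_fin, heδ] at hGU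
  have hG0 : 0 < G := by
    have := (abs_le.1 hGU).1
    have : (0 : ℝ) < G := by nlinarith
    exact_mod_cast this
  refine ⟨fun i => Real.sqrt ((G : ℝ) * w i / ((2 * q * W : ℕ) * (M i : ℝ))),
    fun i => ⟨Real.sqrt_nonneg _, ?_⟩, fun c hfull hone => ?_⟩
  · exact amp_close (hp0 i) (hp1 i) (by have := hq.pos; positivity) (hwR i)
      (mul_pos hJ0 (hμ0 i)) hη0.le (hηe.trans he1) hδ1 (hMp i).2.2.1 (hMp i).2.2.2 (hUeq i) hGU
  · choose z hz using fun x : {y // y ∈ F} => exists_residues (W := W) v ξ hξ M hm hMc h1 u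
      x.1.1.1 (fun i => ((Φ i (Sum.inl x)).2 : ℕ))
    refine exists_runs hW o ho w hw M (fun i => (hMp i).1) hMc hm h1 v u hu θ B b β hvB hβ
      F d Φ z (fun i x => ?_) (fun i x => (hz x i).2) G hGdef hG0 _ (fun i => rfl) hfull hone
    rw [hΦ i x, (hz x i).1, ← startOf_cast hW v w hw o i x.1.1, hu i]
    push_cast
    rfl

/-- Module Assemble. -/
theorem tiling_of (hS : SquareStatement) (hO : OwnerStatement) (hM : ModuliStatement)
    (hG : GaussStatement) : TilingStatement := by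
  intro ε hε
  set ε₀ := min (ε / 4) (1 / 8) with hε₀
  have hε₀0 : 0 < ε₀ := lt_min (by positivity) (by norm_num)
  have hε₀1 : ε₀ ≤ 1 / 8 := min_le_right _ _
  have hε₀ε : ε₀ ≤ ε / 4 := min_le_left _ _
  obtain ⟨S⟩ := hS ε₀ hε₀0
  obtain ⟨v, u, w, coef, hu, hw0, hp, hd, hbound, hnorm⟩ := exists_oriented S
  set E := ∑ i, 2 * ‖S.coef i‖ ^ 2 with hE
  have hE0 : 1 - ε₀ ≤ E := S.energy
  have hEpos : 0 < E := by linarith
  set p : Fin S.n → ℝ := fun i => ‖S.coef i‖ ^ 2 / E with hp'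
  set θ : Fin S.n → ℝ := fun i => (coef i).arg / (2 * Real.pi) with hθ
  have hnpos : 0 < (S.n : ℝ) := Nat.cast_pos.2 S.n_pos
  set δ := min (1 / 32) (ε / (16 * S.n)) with hδ
  obtain ⟨amp, hamp, hruns⟩ := exists_runs_of_model hO hM hG S.n_pos S.two_le v u w hu hw0 hp hd
    θ p (fun i => div_pos (by have := norm_pos_iff.2 (S.coef_ne i); positivity) hEpos)
    (by rw [hp', ← Finset.sum_div, ← mul_div_assoc, Finset.mul_sum, ← hE, div_self hEpos.ne'])
    (δ := δ) (lt_min (by norm_num) (by positivity)) ((min_le_left _ _).trans (by norm_num))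
  have hsq : 1 - ε₀ ≤ Real.sqrt E := Real.le_sqrt_of_sq_le (by nlinarith)
  have hsq0 : 0 < Real.sqrt E := by linarith
  have hsp : ∀ i, Real.sqrt (p i) = ‖S.coef i‖ / Real.sqrt E := fun i => by
    simp only [hp']
    rw [Real.sqrt_div' _ hEpos.le, Real.sqrt_sq (norm_nonneg _)]
  refine (hruns (1 + ε) (fun φ => ?_) (fun i => ?_)).imp fun D hD => hD
  · have hsplit : ∀ i, 2 * amp i * (ch (θ i + ∑ l, (v i l : ℝ) * φ l)).re =
        (Real.sqrt E)⁻¹ * (2 * (coef i * ch (∑ l, (v i l : ℝ) * φ l)).re) +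
          2 * (amp i - Real.sqrt (p i)) * (ch (θ i + ∑ l, (v i l : ℝ) * φ l)).re := fun i => by
      have h : (coef i * ch (∑ l, (v i l : ℝ) * φ l)).re =
          ‖S.coef i‖ * (ch (θ i + ∑ l, (v i l : ℝ) * φ l)).re := by
        conv_lhs => rw [coef_eq_norm_mul_ch (coef i), mul_assoc, ← ch_add, Complex.re_ofReal_mul]
        rw [hnorm]
      rw [h, hsp i]
      ring
    simp only [hsplit, Finset.sum_add_distrib, ← Finset.mul_sum]
    refine (abs_add_le _ _).trans (le_trans (add_le_add (b := 1 + ε / 2) (d := ε / 2) ?_ ?_)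
      (le_of_eq (by ring)))
    · rw [abs_mul, abs_of_pos (inv_pos.2 hsq0)]
      refine (mul_le_of_le_one_right (inv_pos.2 hsq0).le ?_).trans ?_
      · rw [Finset.mul_sum]; exact hbound φ
      · rw [inv_le_iff_one_le_mul₀ hsq0]
        nlinarith [mul_le_mul_of_nonneg_left hsq (by positivity : 0 ≤ 1 + ε / 2)]
    · refine (Finset.abs_sum_le_sum_abs _ _).trans ?_
      refine (Finset.sum_le_sum fun i _ => (?_ : _ ≤ 8 * δ)).trans ?_
      · rw [abs_mul, abs_mul, abs_two]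
        have h1 := (hamp i).2
        have h2 := (Complex.abs_re_le_norm (ch (θ i + ∑ l, (v i l : ℝ) * φ l))).trans
          (norm_ch _).le
        nlinarith [abs_nonneg (amp i - Real.sqrt (p i))]
      · rw [Finset.sum_const, Finset.card_univ, Fintype.card_fin, nsmul_eq_mul]
        have h : δ ≤ ε / (16 * S.n) := min_le_right _ _
        rw [le_div_iff₀ (by positivity)] at h
        linarith
  · have h1 := (abs_le.1 (hamp i).2).2
    have h2 : δ ≤ 1 / 32 := min_le_left _ _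
    have h3 : Real.sqrt (p i) ≤ 1 / 4 := by
      rw [hsp i, div_le_iff₀ hsq0]
      linarith [S.small i]
    linarith

end Vale.Agent.P110.Full
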