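import Mathlib
import Vale.Agent.P110.Full.Statements

/-!
The frozen final statement gives the question's own formulations, spelled out with Mathlib notions
only.
-/

noncomputable section

namespace Vale.Agent.P110.Full

open Filter

/-- The sequence formulation: lengths tend to infinity, coefficients are signs, and the modulus
divided by the square root of the length tends to one uniformly on the circle. -/
theorem exists_sequence_of_statement (h : UltraflatStatement) :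
    ∃ (N : ℕ → ℕ) (e : (n : ℕ) → Fin (N n) → ℝ), Tendsto N atTop atTop ∧
      (∀ n k, e n k = 1 ∨ e n k = -1) ∧
      ∀ η > (0 : ℝ), ∀ᶠ n in atTop, ∀ z : ℂ, ‖z‖ = 1 →
        |‖∑ k : Fin (N n), (e n k : ℂ) * z ^ (k : ℕ)‖ / Real.sqrt (N n) - 1| ≤ η := by
  have hc : ∀ n : ℕ, (0 : ℝ) < 1 / ((n : ℝ) + 1) := fun n => by positivity
  choose N₀ hN₀ using fun n : ℕ => h _ (hc n)
  choose e he using fun n : ℕ => hN₀ n (max (N₀ n) (n + 1)) (le_max_left _ _)
  refine ⟨fun n => max (N₀ n) (n + 1), e, ?_, fun n k => (he n).1 k, fun η hη => ?_⟩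
  · exact tendsto_atTop_mono (fun n => le_trans (Nat.le_succ n) (le_max_right _ _)) tendsto_id
  obtain ⟨m, hm⟩ := exists_nat_one_div_lt hη
  filter_upwards [eventually_ge_atTop m] with n hn z hz
  have hN : (0 : ℝ) < Real.sqrt (max (N₀ n) (n + 1) : ℕ) :=
    Real.sqrt_pos.2 (by exact_mod_cast lt_of_lt_of_le n.succ_pos (le_max_right _ _))
  have hsmall : 1 / ((n : ℝ) + 1) ≤ η :=
    le_trans (one_div_le_one_div_of_le (by positivity) (by simpa using hn)) hm.le
  obtain ⟨h1, h2⟩ := (he n).2 z hz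
  rw [abs_le]
  constructor
  · rw [le_sub_iff_add_le, le_div_iff₀ hN]
    nlinarith [mul_le_mul_of_nonneg_right hsmall hN.le]
  · rw [sub_le_iff_le_add, div_le_iff₀ hN]
    nlinarith [mul_le_mul_of_nonneg_right hsmall hN.le]

/-- Alternative (ii) of the question fails. -/
theorem not_alternative_of_statement (h : UltraflatStatement) :
    ¬ ∃ c > (0 : ℝ), ∃ N₁ : ℕ, ∀ N ≥ N₁, ∀ e : Fin N → ℝ, (∀ k, e k = 1 ∨ e k = -1) →
      (∃ z : ℂ, ‖z‖ = 1 ∧ (1 + c) * Real.sqrt N ≤ ‖∑ k : Fin N, (e k : ℂ) * z ^ (k : ℕ)‖) ∨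
      (∃ z : ℂ, ‖z‖ = 1 ∧ ‖∑ k : Fin N, (e k : ℂ) * z ^ (k : ℕ)‖ ≤ (1 - c) * Real.sqrt N) := by
  rintro ⟨c, hc, N₁, hbad⟩
  obtain ⟨N₀, hN₀⟩ := h (c / 2) (by positivity)
  obtain ⟨e, he, hflat⟩ := hN₀ (max (max N₀ N₁) 1) (le_trans (le_max_left _ _) (le_max_left _ _))
  have hs : (0 : ℝ) < Real.sqrt (max (max N₀ N₁) 1 : ℕ) :=
    Real.sqrt_pos.2 (by exact_mod_cast lt_of_lt_of_le one_pos (le_max_right _ _))
  rcases hbad _ (le_trans (le_max_right _ _) (le_max_left _ _)) e he with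
    ⟨z, hz, hb⟩ | ⟨z, hz, hb⟩ <;> obtain ⟨h1, h2⟩ := hflat z hz <;> nlinarith [mul_pos hc hs]

end Vale.Agent.P110.Full
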