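import Mathlib
import Vale.Agent.P110.Full.Statements

/-!
A quadratic phase of odd period `n` is a combination of the `n` characters with equal weights.
-/

noncomputable section

namespace Vale.Agent.P110.Full

open Finset ZMod

namespace Gauss

variable {n : ℕ} [NeZero n]

theorem std_eq_ch (x : ℤ) : stdAddChar (x : ZMod n) = ch ((x : ℝ) / n) := by
  rw [stdAddChar_coe, ch]
  congr 1
  push_cast
  ring

theorem conj_std (x : ZMod n) : (starRingEnd ℂ) (stdAddChar x) = stdAddChar (-x) := by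
  rw [AddChar.map_neg_eq_conj]

/-- The quadratic Gauss sum with a linear term. -/
def gsum (b j : ZMod n) : ℂ := ∑ k : ZMod n, stdAddChar (b * k ^ 2 + j * k)

theorem norm_gsum {b : ZMod n} (hb : IsUnit (2 * b)) (j : ZMod n) :
    ‖gsum b j‖ = Real.sqrt n := by
  have key : gsum b j * (starRingEnd ℂ) (gsum b j) = (n : ℂ) := by
    rw [gsum, map_sum, Finset.sum_mul_sum, Finset.sum_comm]
    have step : ∀ l : ZMod n, ∑ k, stdAddChar (b * k ^ 2 + j * k) *
          (starRingEnd ℂ) (stdAddChar (b * l ^ 2 + j * l))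
        = ∑ h : ZMod n, stdAddChar (b * h ^ 2 + j * h) * stdAddChar (l * (2 * b * h)) := by
      intro l
      rw [← Equiv.sum_comp (Equiv.addRight l)]
      refine Finset.sum_congr rfl fun h _ => ?_
      rw [conj_std, ← AddChar.map_add_eq_mul, ← AddChar.map_add_eq_mul]
      congr 1
      simp only [Equiv.coe_addRight]
      ring
    rw [Finset.sum_congr rfl fun l _ => step l, Finset.sum_comm]
    simp_rw [← Finset.mul_sum, AddChar.sum_mulShift _ (isPrimitive_stdAddChar n),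
      hb.mul_right_eq_zero]
    rw [Finset.sum_eq_single (0 : ZMod n) (fun h _ h0 => by simp [h0]) (by simp)]
    simp [ZMod.card]
  rw [Complex.mul_conj, Complex.normSq_eq_norm_sq] at key
  have h : ‖gsum b j‖ ^ 2 = (n : ℝ) := by exact_mod_cast key
  rw [← h, Real.sqrt_sq (norm_nonneg _)]

theorem inversion (b k : ZMod n) :
    ∑ j : ZMod n, gsum b j * stdAddChar (-(j * k)) = (n : ℂ) * stdAddChar (b * k ^ 2) := by
  simp only [gsum, Finset.sum_mul]
  rw [Finset.sum_comm]
  have step : ∀ i : ZMod n, ∑ j : ZMod n, stdAddChar (b * i ^ 2 + j * i) * stdAddChar (-(j * k))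
      = stdAddChar (b * i ^ 2) * ∑ j : ZMod n, stdAddChar (j * (i - k)) := by
    intro i
    rw [Finset.mul_sum]
    refine Finset.sum_congr rfl fun j _ => ?_
    rw [← AddChar.map_add_eq_mul, ← AddChar.map_add_eq_mul]
    congr 1
    ring
  rw [Finset.sum_congr rfl fun i _ => step i]
  simp_rw [AddChar.sum_mulShift _ (isPrimitive_stdAddChar n), sub_eq_zero]
  rw [Finset.sum_eq_single k (fun h _ h0 => by simp [h0]) (by simp)]
  simp [ZMod.card, mul_comm]

end Gauss

theorem gauss : GaussStatement := by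
  intro n b hn hb
  have : NeZero n := ⟨hn.pos.ne'⟩
  have hunit : IsUnit (2 * (b : ZMod n)) := by
    refine IsUnit.mul ?_ ?_
    · exact_mod_cast (ZMod.isUnit_iff_coprime 2 n).2 (Nat.coprime_two_left.2 hn)
    · rw [ZMod.coe_int_isUnit_iff_isCoprime, Int.isCoprime_iff_gcd_eq_one]
      rwa [Int.gcd_comm]
  refine ⟨fun j => (Gauss.gsum (b : ZMod n) ((j : ℕ) : ZMod n)).arg / (2 * Real.pi), fun k => ?_⟩
  have hterm : ∀ j : Fin n,
      ch ((Gauss.gsum (b : ZMod n) ((j : ℕ) : ZMod n)).arg / (2 * Real.pi) - (j : ℕ) * k / n)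
        = (Real.sqrt n : ℂ)⁻¹ * (Gauss.gsum (b : ZMod n) ((j : ℕ) : ZMod n) *
            stdAddChar (-(((j : ℕ) : ZMod n) * (k : ZMod n)))) := by
    intro j
    have hs : (Real.sqrt n : ℂ) ≠ 0 := by
      exact_mod_cast (Real.sqrt_pos.2 (by exact_mod_cast hn.pos : (0 : ℝ) < n)).ne'
    have hcast : (-(((j : ℕ) : ZMod n) * (k : ZMod n))) = ((-((j : ℕ) * k) : ℤ) : ZMod n) := by
      push_cast; ring
    rw [hcast, Gauss.std_eq_ch]
    conv_rhs => rw [← Complex.norm_mul_exp_arg_mul_I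
      (Gauss.gsum (b : ZMod n) ((j : ℕ) : ZMod n)), Gauss.norm_gsum hunit]
    rw [← mul_assoc, ← mul_assoc, inv_mul_cancel₀ hs, one_mul, ch, ch, ← Complex.exp_add]
    congr 1
    push_cast
    field_simp
    ring
  rw [Finset.sum_congr rfl fun j _ => hterm j, ← Finset.mul_sum, ← mul_assoc]
  have hsum : ∑ j : Fin n, Gauss.gsum (b : ZMod n) ((j : ℕ) : ZMod n) *
      stdAddChar (-(((j : ℕ) : ZMod n) * (k : ZMod n)))
      = (n : ℂ) * stdAddChar ((b : ZMod n) * (k : ZMod n) ^ 2) := by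
    rw [← Gauss.inversion (b : ZMod n) (k : ZMod n),
      ← Equiv.sum_comp (ZMod.finEquiv n).toEquiv]
    refine Finset.sum_congr rfl fun j _ => ?_
    have : (ZMod.finEquiv n).toEquiv j = ((j : ℕ) : ZMod n) := by
      obtain ⟨m, rfl⟩ : ∃ m, n = m + 1 := ⟨n - 1, by have := hn.pos; omega⟩
      exact (Fin.cast_val_eq_self j).symm
    rw [this]
  rw [hsum, ← mul_assoc,
    show ((b : ZMod n) * (k : ZMod n) ^ 2) = ((b * k ^ 2 : ℤ) : ZMod n) by push_cast; rfl,
    Gauss.std_eq_ch]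
  have hs2 : (Real.sqrt n : ℂ)⁻¹ * (Real.sqrt n : ℂ)⁻¹ * (n : ℂ) = 1 := by
    have h : (Real.sqrt n : ℂ) * (Real.sqrt n : ℂ) = (n : ℂ) := by
      rw [← Complex.ofReal_mul, Real.mul_self_sqrt (Nat.cast_nonneg n)]
      simp
    have hn0 : (n : ℂ) ≠ 0 := by exact_mod_cast hn.pos.ne'
    rw [← mul_inv, h, inv_mul_cancel₀ hn0]
  rw [hs2, one_mul]
  congr 1
  push_cast
  ring

end Vale.Agent.P110.Full
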