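import Vale.Agent.P110.Full.Osc

/-!
An oscillatory integral with an affine frequency.
-/

noncomputable section

namespace Vale.Agent.P110.Full

/-- Module Linear. -/
theorem linearPhase : LinearPhaseStatement := by
  refine ⟨4, by norm_num, fun σ b p q hpq hσ => ?_⟩
  have hpos : ∀ σ' b' : ℝ, 0 < σ' →
      ‖∫ x in p..q, ch (σ' * x ^ 2 / 2 + b' * x)‖ ≤ 4 / Real.sqrt σ' := fun σ' b' h =>
    second_deriv_le (φ := fun x => σ' * x + b') (g := fun _ => σ') hpq h
      (fun x => ((((hasDerivAt_id x).pow 2).const_mul σ').div_const 2 |>.add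
        ((hasDerivAt_id x).const_mul b')).congr_deriv (by simp; ring))
      (fun x => (((hasDerivAt_id x).const_mul σ').add_const b').congr_deriv (by simp))
      continuous_const fun _ _ => le_rfl
  rcases hσ.lt_or_gt with h | h
  · have h1 := hpos (-σ) (-b) (neg_pos.2 h)
    rw [abs_of_neg h]
    refine le_trans (le_of_eq ?_) h1
    rw [← RCLike.norm_conj (K := ℂ), ← intervalIntegral.intervalIntegral_conj]
    congr 1
    refine intervalIntegral.integral_congr fun x _ => ?_
    simp only [conj_ch]
    congr 1
    ring
  · rw [abs_of_pos h]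
    exact hpos σ b h

end Vale.Agent.P110.Full
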