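import Mathlib
import Vale.Agent.P110.Full.Statements

/-!
Pairwise coprime moduli, congruent to one modulo `L`, of prescribed relative size.
-/

noncomputable section

namespace Vale.Agent.P110.Full

open Finset

theorem moduli : ModuliStatement := by
  intro n t ht η hη L hL
  set η' := min η 1 with hη'
  have hη0 : 0 < η' := lt_min hη one_pos
  have hη1 : η' ≤ 1 := min_le_right _ _
  set δ := η' / 8 with hδ
  obtain ⟨K, hK⟩ : ∃ K : ℕ, ∀ i, 2 / (δ * t i) + 2 / t i ≤ K :=
    ⟨⌈∑ i, (2 / (δ * t i) + 2 / t i)⌉₊, fun i => (single_le_sum (f := fun i => 2 / (δ * t i) +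
      2 / t i) (fun j _ => by have := ht j; positivity) (mem_univ i)).trans (Nat.le_ceil _)⟩
  set m : Fin n → ℕ := fun i => n * ⌊(K : ℝ) * t i⌋₊ + (i : ℕ) with hm
  set D := ∑ i, m i with hD
  set L' := L * D.factorial with hL'
  have hL'0 : 0 < L' := mul_pos hL (Nat.factorial_pos D)
  have hKt : ∀ i, 2 / δ + 2 ≤ (K : ℝ) * t i := fun i => by
    have h := mul_le_mul_of_nonneg_right (hK i) (ht i).le
    have := (ht i).ne'
    calc 2 / δ + 2 = (2 / (δ * t i) + 2 / t i) * t i := by field_simp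
      _ ≤ _ := h
  have hbnd : ∀ i, (1 - δ) * ((n : ℝ) * K * t i) ≤ m i ∧
      (m i : ℝ) ≤ (1 + δ) * ((n : ℝ) * K * t i) := fun i => by
    have h0 : (0 : ℝ) ≤ (K : ℝ) * t i := mul_nonneg (Nat.cast_nonneg _) (ht i).le
    have h1 := Nat.floor_le h0
    have h2 := Nat.lt_floor_add_one ((K : ℝ) * t i)
    have hn : (0 : ℝ) ≤ n := Nat.cast_nonneg n
    have hi0 : (0 : ℝ) ≤ (i : ℕ) := Nat.cast_nonneg _
    have hi : ((i : ℕ) : ℝ) ≤ n := by exact_mod_cast i.2.le
    have hδt : 1 ≤ δ * ((K : ℝ) * t i) := by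
      have h3 := mul_le_mul_of_nonneg_left (hKt i) (by positivity : 0 ≤ δ)
      have h4 : δ * (2 / δ + 2) = 2 + 2 * δ := by
        have : δ ≠ 0 := by positivity
        field_simp
      have : 0 < δ := by positivity
      linarith
    simp only [hm, Nat.cast_add, Nat.cast_mul]
    constructor <;> nlinarith [mul_le_mul_of_nonneg_left hδt hn]
  have hmD : ∀ i, m i ≤ D := fun i => single_le_sum (fun j _ => Nat.zero_le (m j)) (mem_univ i)
  set a : ℝ := (n : ℝ) * K * L' with ha
  refine ⟨∑ i, (8 / (η' * t i) + 8 * a / η' + a), fun S hS => ?_⟩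
  set j := ⌊S * (1 - η' / 2) / a⌋₊ with hj
  refine ⟨fun i => 1 + m i * (j * L'), fun i => ?_, fun i k hik => ?_⟩
  · have hti := ht i
    have hn : (0 : ℝ) < n := by exact_mod_cast Fin.pos i
    have hKpos : (0 : ℝ) < K := by
      have := hKt i
      have : 0 < (K : ℝ) * t i := by linarith [show 0 < 2 / δ by positivity]
      exact (pos_iff_pos_of_mul_pos this).2 hti
    have ha0 : 0 < a := by
      have : (0 : ℝ) < L' := by exact_mod_cast hL'0
      positivity
    have hSi : 8 / (η' * t i) + 8 * a / η' + a ≤ S :=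
      (single_le_sum (f := fun i => 8 / (η' * t i) + 8 * a / η' + a)
        (fun j _ => by have := ht j; positivity) (mem_univ i)).trans hS
    have hp1 : 0 < 8 / (η' * t i) := by positivity
    have hp2 : 0 < 8 * a / η' := by positivity
    have hS0 : 0 < S := by linarith
    have e1 : 8 ≤ η' * t i * S := by
      have h := mul_le_mul_of_nonneg_left (by linarith : 8 / (η' * t i) ≤ S)
        (by positivity : 0 ≤ η' * t i)
      rwa [mul_div_cancel₀ _ (by positivity : η' * t i ≠ 0)] at h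
    have e2 : 8 * a ≤ η' * S := by
      have h := mul_le_mul_of_nonneg_left (by linarith : 8 * a / η' ≤ S) hη0.le
      rwa [mul_div_cancel₀ _ hη0.ne'] at h
    have hfl : 0 ≤ S * (1 - η' / 2) / a := by
      have : 0 ≤ 1 - η' / 2 := by linarith
      positivity
    have hj1 : (j : ℝ) * a ≤ S * (1 - η' / 2) := (le_div_iff₀ ha0).1 (Nat.floor_le hfl)
    have hj2 : S * (1 - η' / 2) - a ≤ (j : ℝ) * a := by
      have h := Nat.lt_floor_add_one (S * (1 - η' / 2) / a)
      rw [div_lt_iff₀ ha0, ← hj] at h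
      linarith
    have hM : ((1 + m i * (j * L') : ℕ) : ℝ) = 1 + (m i : ℝ) * ((j : ℝ) * L') := by push_cast; ring
    have hjL : (0 : ℝ) ≤ (j : ℝ) * L' := by positivity
    have heq : (n : ℝ) * K * t i * ((j : ℝ) * L') = t i * ((j : ℝ) * a) := by rw [ha]; ring
    have hlo := mul_le_mul_of_nonneg_right (hbnd i).1 hjL
    have hhi := mul_le_mul_of_nonneg_right (hbnd i).2 hjL
    rw [mul_assoc, heq] at hlo hhi
    have hδ1 : 0 ≤ 1 - δ := by linarith
    have hlo2 := mul_le_mul_of_nonneg_left (mul_le_mul_of_nonneg_left hj2 hti.le) hδ1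
    have hhi2 := mul_le_mul_of_nonneg_left (mul_le_mul_of_nonneg_left hj1 hti.le)
      (by positivity : 0 ≤ 1 + δ)
    refine ⟨Nat.add_pos_left one_pos _, ?_, ?_, ?_⟩
    · refine (Nat.modEq_iff_dvd' le_self_add).2 ?_ |>.symm
      rw [Nat.add_sub_cancel_left]
      exact Dvd.dvd.mul_left (Dvd.dvd.mul_left (Dvd.intro _ rfl) _) _
    · rw [hM]
      have hη2 : 1 - η ≤ 1 - η' := by linarith [min_le_left η 1]
      have h5 := mul_le_mul_of_nonneg_right hη2 (mul_nonneg hS0.le hti.le)
      have h6 := mul_le_mul_of_nonneg_left e2 hti.le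
      have h7 : 0 ≤ η' * η' * (S * t i) := by positivity
      have h8 : 0 ≤ η' * (t i * a) := by positivity
      rw [hδ] at hlo2 hlo
      nlinarith
    · rw [hM]
      have h7 : 0 ≤ η' * η' * (S * t i) := by positivity
      rw [hδ] at hhi2 hhi
      nlinarith
  · refine Nat.coprime_of_dvd fun p hp hpi hpk => ?_
    have hnd : ¬p ∣ j * L' := fun h => hp.not_dvd_one ((Nat.dvd_add_left (h.mul_left _)).1 hpi)
    have hne : m i ≠ m k := fun h => by
      have h1 := congrArg (· % n) h
      simp only [hm, Nat.mul_add_mod_self_left, Nat.mod_eq_of_lt i.2, Nat.mod_eq_of_lt k.2] at h1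
      exact hik (Fin.ext h1)
    have hd : ((p : ℕ) : ℤ) ∣ ((j * L' : ℕ) : ℤ) * ((m i : ℤ) - m k) := by
      have h := dvd_sub (Int.natCast_dvd_natCast.2 hpi) (Int.natCast_dvd_natCast.2 hpk)
      push_cast at h ⊢
      have e : ((1 : ℤ) + m i * (j * L')) - (1 + m k * (j * L')) = j * L' * (m i - m k) := by
        ring
      rwa [e] at h
    rcases (Nat.prime_iff_prime_int.1 hp).dvd_or_dvd hd with h | h
    · exact hnd (Int.natCast_dvd_natCast.1 h)
    · refine hnd (Dvd.dvd.mul_left (Dvd.dvd.mul_left (Nat.dvd_factorial hp.pos ?_) _) _)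
      have h1 := Int.le_of_dvd (abs_pos.2 (sub_ne_zero.2 (by exact_mod_cast hne))) ((dvd_abs _ _).2 h)
      have := hmD i
      have := hmD k
      rcases abs_cases ((m i : ℤ) - m k) with ⟨h2, -⟩ | ⟨h2, -⟩ <;> omega

end Vale.Agent.P110.Full
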