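import Vale.Agent.P110.Full.Main

/-!
Van der Corput bounds for oscillatory integrals, and the normalised Fresnel integral.
-/

noncomputable section

namespace Vale.Agent.P110.Full

open Filter Topology MeasureTheory

theorem hasDerivAt_ch_comp {ψ : ℝ → ℝ} {v x : ℝ} (h : HasDerivAt ψ v x) :
    HasDerivAt (fun y => ch (ψ y)) (ch (ψ x) * (((2 * Real.pi * v : ℝ) : ℂ) * Complex.I)) x :=
  (((h.const_mul (2 * Real.pi)).ofReal_comp).mul_const Complex.I).cexp

theorem continuous_ch : Continuous ch :=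
  Complex.continuous_exp.comp
    (((Complex.continuous_ofReal).comp (continuous_const.mul continuous_id)).mul continuous_const)

theorem ch_zero : ch 0 = 1 := by simp [ch]

theorem norm_ch_sub_ch_le (x y : ℝ) : ‖ch x - ch y‖ ≤ 2 * Real.pi * |x - y| := by
  have e : ch x - ch y = ch y * (ch (x - y) - 1) := by
    rw [mul_sub, ← ch_add, mul_one]; congr 2; ring
  rw [e, norm_mul, norm_ch, one_mul, ch, mul_comm _ Complex.I]
  refine Real.norm_exp_I_mul_ofReal_sub_one_le.trans (le_of_eq ?_)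
  rw [Real.norm_eq_abs, abs_mul, abs_of_pos (by positivity : (0 : ℝ) < 2 * Real.pi)]

theorem norm_integral_ch_le (ψ : ℝ → ℝ) {a b : ℝ} (hab : a ≤ b) :
    ‖∫ x in a..b, ch (ψ x)‖ ≤ b - a := by
  refine (intervalIntegral.norm_integral_le_of_norm_le_const
    (C := 1) fun x _ => (norm_ch _).le).trans (le_of_eq ?_)
  rw [abs_of_nonneg (sub_nonneg.2 hab), one_mul]

/-- Integration against a monotone amplitude. -/
theorem norm_integral_amp_le {a b B : ℝ} {A A' : ℝ → ℝ} {f : ℝ → ℂ} (hab : a ≤ b)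
    (hA : ∀ x, HasDerivAt A (A' x) x) (hA' : Continuous A') (hneg : ∀ x ∈ Set.Icc a b, A' x ≤ 0)
    (hpos : 0 ≤ A b) (hf : Continuous f)
    (hB : ∀ x ∈ Set.Icc a b, ‖∫ y in a..x, f y‖ ≤ B) :
    ‖∫ x in a..b, (A x : ℂ) * f x‖ ≤ A a * B := by
  set F : ℝ → ℂ := fun x => ∫ y in a..x, f y with hF
  have hFd : ∀ x, HasDerivAt F (f x) x := fun x => (hf.integral_hasStrictDerivAt a x).hasDerivAt
  have hAc : Continuous A := continuous_iff_continuousAt.2 fun x => (hA x).continuousAt
  have hFc : Continuous F := continuous_iff_continuousAt.2 fun x => (hFd x).continuousAt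
  have hparts := intervalIntegral.integral_mul_deriv_eq_deriv_mul
    (u := fun x => (A x : ℂ)) (v := F) (u' := fun x => (A' x : ℂ)) (v' := f) (a := a) (b := b)
    (fun x _ => (hA x).ofReal_comp) (fun x _ => hFd x)
    ((Complex.continuous_ofReal.comp hA').intervalIntegrable a b) (hf.intervalIntegrable a b)
  rw [hparts]
  have h0 : F a = 0 := intervalIntegral.integral_same
  rw [h0, mul_zero, sub_zero]
  have h1 : ‖(A b : ℂ) * F b‖ ≤ A b * B := by
    rw [norm_mul, Complex.norm_real, Real.norm_eq_abs, abs_of_nonneg hpos]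
    exact mul_le_mul_of_nonneg_left (hB b (Set.right_mem_Icc.2 hab)) hpos
  have h2 : ‖∫ x in a..b, (A' x : ℂ) * F x‖ ≤ (A a - A b) * B := by
    calc ‖∫ x in a..b, (A' x : ℂ) * F x‖ ≤ ∫ x in a..b, -A' x * B := by
          refine intervalIntegral.norm_integral_le_of_norm_le hab ?_
            ((hA'.neg.mul continuous_const).intervalIntegrable a b)
          refine Eventually.of_forall fun x hx => ?_
          have hx' : x ∈ Set.Icc a b := Set.Ioc_subset_Icc_self hx
          rw [norm_mul, Complex.norm_real, Real.norm_eq_abs, abs_of_nonpos (hneg x hx')]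
          exact mul_le_mul_of_nonneg_left (hB x hx') (neg_nonneg.2 (hneg x hx'))
      _ = (A a - A b) * B := by
          rw [intervalIntegral.integral_mul_const, intervalIntegral.integral_neg,
            intervalIntegral.integral_eq_sub_of_hasDerivAt (fun x _ => hA x)
              (hA'.intervalIntegrable a b), neg_sub]
  refine (norm_sub_le _ _).trans ?_
  linarith

/-- The first derivative bound, for a phase with monotone derivative. -/
theorem first_deriv_le {a b m : ℝ} {ψ φ g : ℝ → ℝ} (hab : a ≤ b) (hm : 0 < m)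
    (hψ : ∀ x ∈ Set.Icc a b, HasDerivAt ψ (φ x) x) (hφ : ∀ x ∈ Set.Icc a b, HasDerivAt φ (g x) x)
    (hg : Continuous g) (hg0 : ∀ x ∈ Set.Icc a b, 0 ≤ g x)
    (hlow : ∀ x ∈ Set.Icc a b, m ≤ |φ x|) :
    ‖∫ x in a..b, ch (ψ x)‖ ≤ 1 / m := by
  have hne : ∀ x ∈ Set.Icc a b, φ x ≠ 0 := fun x hx h => by
    have := hlow x hx; rw [h, abs_zero] at this; linarith
  have hu : Set.uIcc a b = Set.Icc a b := Set.uIcc_of_le hab
  have hπ : (0 : ℝ) < 2 * Real.pi := by positivity
  set q : ℝ → ℝ := fun x => (φ x)⁻¹ / (2 * Real.pi) with hq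
  set q' : ℝ → ℝ := fun x => -(g x) / (φ x) ^ 2 / (2 * Real.pi) with hq'
  have hqd : ∀ x ∈ Set.Icc a b, HasDerivAt q (q' x) x := fun x hx =>
    ((hφ x hx).inv (hne x hx)).div_const _
  have hφc : ContinuousOn φ (Set.Icc a b) := fun x hx => (hφ x hx).continuousAt.continuousWithinAt
  have hψc : ContinuousOn ψ (Set.Icc a b) := fun x hx => (hψ x hx).continuousAt.continuousWithinAt
  have hchc : ContinuousOn (fun x => ch (ψ x)) (Set.Icc a b) := continuous_ch.comp_continuousOn hψc
  have hq'c : ContinuousOn q' (Set.Icc a b) :=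
    ((hg.continuousOn.neg).div (hφc.pow 2) fun x hx => pow_ne_zero _ (hne x hx)).div_const _
  set F : ℝ → ℂ := fun x => -Complex.I * ((q x : ℂ) * ch (ψ x)) with hF
  set E : ℝ → ℂ := fun x => -Complex.I * ((q' x : ℂ) * ch (ψ x)) with hE
  have hFd : ∀ x ∈ Set.Icc a b, HasDerivAt F (ch (ψ x) + E x) x := by
    intro x hx
    refine (((hqd x hx).ofReal_comp.mul (hasDerivAt_ch_comp (hψ x hx))).const_mul
      (-Complex.I)).congr_deriv ?_
    have h1 : ((2 * Real.pi * φ x : ℝ) : ℂ) * (q x : ℂ) = 1 := by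
      rw [← Complex.ofReal_mul, ← Complex.ofReal_one]
      congr 1
      rw [hq]
      have := hne x hx
      field_simp
    simp only [hE]
    linear_combination (ch (ψ x) * (2 * Real.pi * φ x : ℝ) * q x) * Complex.I_mul_I * (-1 : ℂ)
      + ch (ψ x) * h1
  have hEc : ContinuousOn E (Set.Icc a b) :=
    continuousOn_const.mul ((Complex.continuous_ofReal.comp_continuousOn hq'c).mul hchc)
  have hi1 : IntervalIntegrable (fun x => ch (ψ x)) volume a b :=
    (hu.symm ▸ hchc).intervalIntegrable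
  have hi2 : IntervalIntegrable E volume a b := (hu.symm ▸ hEc).intervalIntegrable
  have hiq : IntervalIntegrable q' volume a b := (hu.symm ▸ hq'c).intervalIntegrable
  have hint := intervalIntegral.integral_eq_sub_of_hasDerivAt (f := F)
    (fun x hx => hFd x (hu ▸ hx)) (hi1.add hi2)
  rw [intervalIntegral.integral_add hi1 hi2] at hint
  have hE1 : ‖∫ x in a..b, E x‖ ≤ q a - q b := by
    calc ‖∫ x in a..b, E x‖ ≤ ∫ x in a..b, -q' x := by
          refine intervalIntegral.norm_integral_le_of_norm_le hab (Eventually.of_forall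
            fun x hx => ?_) hiq.neg
          have hx' : x ∈ Set.Icc a b := Set.Ioc_subset_Icc_self hx
          simp only [hE, norm_mul, norm_neg, Complex.norm_I, one_mul, norm_ch, mul_one,
            Complex.norm_real, Real.norm_eq_abs]
          refine le_of_eq (abs_of_nonpos ?_)
          simp only [hq']
          exact div_nonpos_of_nonpos_of_nonneg
            (div_nonpos_of_nonpos_of_nonneg (neg_nonpos.2 (hg0 x hx')) (sq_nonneg _)) hπ.le
      _ = q a - q b := by
          rw [intervalIntegral.integral_neg, intervalIntegral.integral_eq_sub_of_hasDerivAt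
            (fun x hx => hqd x (hu ▸ hx)) hiq, neg_sub]
  have habs : ∀ x ∈ Set.Icc a b, |q x| ≤ 1 / (2 * Real.pi * m) := fun x hx => by
    rw [hq, abs_div, abs_inv, abs_of_pos hπ, div_le_iff₀ hπ]
    refine (inv_anti₀ hm (hlow x hx)).trans (le_of_eq ?_)
    field_simp
  have hFn : ∀ x ∈ Set.Icc a b, ‖F x‖ ≤ 1 / (2 * Real.pi * m) := fun x hx => by
    simp only [hF, norm_mul, norm_neg, Complex.norm_I, one_mul, norm_ch, mul_one,
      Complex.norm_real, Real.norm_eq_abs]
    exact habs x hx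
  have hl := Set.left_mem_Icc.2 hab
  have hr := Set.right_mem_Icc.2 hab
  have e : ∫ x in a..b, ch (ψ x) = F b - F a - ∫ x in a..b, E x := by rw [← hint]; ring
  rw [e]
  refine (norm_sub_le _ _).trans ((add_le_add (norm_sub_le _ _) hE1).trans ?_)
  have h1 := (abs_le.1 (habs a hl)).2
  have h2 := (abs_le.1 (habs b hr)).1
  have h3 := hFn a hl
  have h4 := hFn b hr
  have h5 : 4 / (2 * Real.pi * m) ≤ 1 / m := by
    rw [div_le_div_iff₀ (by positivity) hm]
    nlinarith [Real.pi_gt_three, hm]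
  have h6 : 4 / (2 * Real.pi * m) = 4 * (1 / (2 * Real.pi * m)) := by ring
  linarith

/-- The second derivative bound. -/
theorem second_deriv_le {a b lam : ℝ} {ψ φ g : ℝ → ℝ} (hab : a ≤ b) (hlam : 0 < lam)
    (hψ : ∀ x, HasDerivAt ψ (φ x) x) (hφ : ∀ x, HasDerivAt φ (g x) x) (hg : Continuous g)
    (hlow : ∀ x ∈ Set.Icc a b, lam ≤ g x) :
    ‖∫ x in a..b, ch (ψ x)‖ ≤ 4 / Real.sqrt lam := by
  have hφc : Continuous φ := continuous_iff_continuousAt.2 fun x => (hφ x).continuousAt
  have hψc : Continuous ψ := continuous_iff_continuousAt.2 fun x => (hψ x).continuousAt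
  have hgrow : ∀ x ∈ Set.Icc a b, ∀ y ∈ Set.Icc a b, x ≤ y → lam * (y - x) ≤ φ y - φ x := by
    intro x hx y hy hxy
    refine Convex.mul_sub_le_image_sub_of_le_deriv (convex_Icc a b) hφc.continuousOn
      (fun z _ => (hφ z).differentiableAt.differentiableWithinAt) (fun z hz => ?_) x hx y hy hxy
    rw [(hφ z).deriv]
    exact hlow z (interior_subset hz)
  set δ := 1 / Real.sqrt lam with hδ
  have hs : 0 < Real.sqrt lam := Real.sqrt_pos.2 hlam
  have hδ0 : 0 < δ := by rw [hδ]; positivity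
  obtain ⟨c, hc, hright, hleft⟩ : ∃ c ∈ Set.Icc a b, (c < b → 0 ≤ φ c) ∧ (a < c → φ c ≤ 0) := by
    rcases le_or_gt 0 (φ a) with ha | ha
    · exact ⟨a, Set.left_mem_Icc.2 hab, fun _ => ha, fun h => absurd h (lt_irrefl a)⟩
    rcases le_or_gt (φ b) 0 with hb | hb
    · exact ⟨b, Set.right_mem_Icc.2 hab, fun h => absurd h (lt_irrefl b), fun _ => hb⟩
    obtain ⟨c, hc, hc0⟩ := intermediate_value_Icc hab hφc.continuousOn
      (show (0 : ℝ) ∈ Set.Icc (φ a) (φ b) from ⟨ha.le, hb.le⟩)
    exact ⟨c, hc, fun _ => hc0.ge, fun _ => hc0.le⟩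
  set p := max a (c - δ) with hp
  set q := min b (c + δ) with hq
  have hap : a ≤ p := le_max_left _ _
  have hpc : p ≤ c := max_le hc.1 (by linarith)
  have hcq : c ≤ q := le_min hc.2 (by linarith)
  have hqb : q ≤ b := min_le_left _ _
  have hi : ∀ u v, IntervalIntegrable (fun x => ch (ψ x)) volume u v := fun u v =>
    (continuous_ch.comp hψc).intervalIntegrable u v
  rw [← intervalIntegral.integral_add_adjacent_intervals (hi a p) (hi p b),
    ← intervalIntegral.integral_add_adjacent_intervals (hi p q) (hi q b)]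
  have hmid : ‖∫ x in p..q, ch (ψ x)‖ ≤ 2 * δ :=
    (norm_integral_ch_le ψ (hpc.trans hcq)).trans (by
      linarith [le_max_right a (c - δ), min_le_right b (c + δ)])
  have hside : ∀ u v, a ≤ u → u ≤ v → v ≤ b → (v ≤ c - δ ∨ c + δ ≤ u ∨ u = v) →
      ‖∫ x in u..v, ch (ψ x)‖ ≤ δ := by
    intro u v hu huv hv hor
    by_cases he : u = v
    · rw [he, intervalIntegral.integral_same, norm_zero]; exact hδ0.le
    refine (first_deriv_le huv (mul_pos hlam hδ0) (fun x _ => hψ x) (fun x _ => hφ x) hg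
      (fun x hx => hlam.le.trans (hlow x ⟨hu.trans hx.1, hx.2.trans hv⟩)) fun x hx => ?_).trans
      (le_of_eq ?_)
    · have hx' : x ∈ Set.Icc a b := ⟨hu.trans hx.1, hx.2.trans hv⟩
      rcases hor with h | h | h
      · have h1 := hgrow x hx' c hc (by linarith [hx.2])
        have h2 := hleft (by linarith [hx.2, hx'.1])
        have h3 : lam * δ ≤ lam * (c - x) := mul_le_mul_of_nonneg_left (by linarith [hx.2]) hlam.le
        exact le_trans (by linarith) (neg_le_abs _)
      · have h1 := hgrow c hc x hx' (by linarith [hx.1])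
        have h2 := hright (by linarith [hx.1, hx'.2])
        have h3 : lam * δ ≤ lam * (x - c) := mul_le_mul_of_nonneg_left (by linarith [hx.1]) hlam.le
        exact le_trans (by linarith) (le_abs_self _)
      · exact absurd h he
    · rw [hδ]
      field_simp
      rw [Real.sq_sqrt hlam.le]
  have hl : ‖∫ x in a..p, ch (ψ x)‖ ≤ δ := by
    refine hside a p le_rfl hap (hpc.trans hc.2) ?_
    rcases le_total a (c - δ) with h | h
    · exact Or.inl (le_of_eq (max_eq_right h))
    · exact Or.inr (Or.inr (max_eq_left h).symm)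
  have hr : ‖∫ x in q..b, ch (ψ x)‖ ≤ δ := by
    refine hside q b (hc.1.trans hcq) hqb le_rfl ?_
    rcases le_total (c + δ) b with h | h
    · exact Or.inr (Or.inl (le_of_eq (min_eq_right h).symm))
    · exact Or.inr (Or.inr (min_eq_left h))
  refine (norm_add_le _ _).trans ((add_le_add hl
    ((norm_add_le _ _).trans (add_le_add hmid hr))).trans (le_of_eq ?_))
  rw [hδ]; ring

/-- The Fresnel integral over `[-R, R]`. -/
def fres (R : ℝ) : ℂ := ∫ u in (-R)..R, ch (u ^ 2 / 2)

theorem continuous_ch_sq : Continuous fun u : ℝ => ch (u ^ 2 / 2) :=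
  continuous_ch.comp ((continuous_id.pow 2).div_const 2)

theorem norm_sq_tail_le {R S : ℝ} (hR : 0 < R) (hRS : R ≤ S) :
    ‖∫ u in R..S, ch (u ^ 2 / 2)‖ ≤ 1 / R :=
  first_deriv_le (φ := fun u => u) (g := fun _ => 1) hRS hR
    (fun x _ => (((hasDerivAt_id x).pow 2).div_const 2).congr_deriv (by simp))
    (fun x _ => hasDerivAt_id x) continuous_const (fun _ _ => zero_le_one)
    fun x hx => le_trans hx.1 (le_abs_self x)

theorem fres_eq_two_mul (R : ℝ) : fres R = 2 * ∫ u in (0 : ℝ)..R, ch (u ^ 2 / 2) := by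
  have hi : ∀ u v, IntervalIntegrable (fun x : ℝ => ch (x ^ 2 / 2)) volume u v := fun u v =>
    continuous_ch_sq.intervalIntegrable u v
  have e : ∫ u in (-R)..(0 : ℝ), ch (u ^ 2 / 2) = ∫ u in (0 : ℝ)..R, ch (u ^ 2 / 2) := by
    have := intervalIntegral.integral_comp_neg (a := (0 : ℝ)) (b := R)
      (fun x : ℝ => ch (x ^ 2 / 2))
    simpa [neg_sq] using this.symm
  rw [fres, ← intervalIntegral.integral_add_adjacent_intervals (hi (-R) 0) (hi 0 R), e, two_mul]

theorem norm_fres_sub_le {R S : ℝ} (hR : 0 < R) (hRS : R ≤ S) :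
    ‖fres S - fres R‖ ≤ 2 / R := by
  have hi : ∀ u v, IntervalIntegrable (fun x : ℝ => ch (x ^ 2 / 2)) volume u v := fun u v =>
    continuous_ch_sq.intervalIntegrable u v
  rw [fres_eq_two_mul, fres_eq_two_mul, ← mul_sub,
    intervalIntegral.integral_interval_sub_left (hi 0 S) (hi 0 R), norm_mul, Complex.norm_two]
  refine (mul_le_mul_of_nonneg_left (norm_sq_tail_le hR hRS) zero_le_two).trans (le_of_eq ?_)
  ring

theorem exists_fres_limit :
    ∃ ζ : ℂ, ‖ζ‖ = 1 ∧ ∀ R : ℝ, 0 < R → ‖fres R - ζ‖ ≤ 2 / R := by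
  have hcauchy : CauchySeq fun n : ℕ => fres ((n : ℝ) + 1) := by
    refine Metric.cauchySeq_iff'.2 fun η hη => ?_
    obtain ⟨n, hn⟩ := exists_nat_gt (2 / η)
    refine ⟨n, fun k hk => ?_⟩
    rw [dist_eq_norm]
    have hkn : (n : ℝ) ≤ k := Nat.cast_le.2 hk
    refine (norm_fres_sub_le (by positivity) (by linarith)).trans_lt ?_
    rw [div_lt_iff₀ (by positivity)]
    rw [div_lt_iff₀ hη] at hn
    nlinarith
  obtain ⟨ζ, hζ⟩ := cauchySeq_tendsto_of_complete hcauchy
  have hlim : ∀ R : ℝ, 0 < R → ‖fres R - ζ‖ ≤ 2 / R := by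
    intro R hR
    refine le_of_tendsto ((tendsto_const_nhds.sub hζ).norm) ?_
    filter_upwards [eventually_ge_atTop ⌈R⌉₊] with n hn
    rw [norm_sub_rev]
    refine norm_fres_sub_le hR ?_
    linarith [Nat.le_ceil R, (Nat.cast_le (α := ℝ)).2 hn]
  refine ⟨ζ, ?_, hlim⟩
  have hclose : ∀ R s : ℝ, 0 < R → 0 < s →
      |‖ζ‖ - (Real.pi / Real.sqrt (s ^ 2 + Real.pi ^ 2)) ^ (1 / 2 : ℝ)|
        ≤ 4 / R + 2 * R * (s * R ^ 2) := by
    intro R s hR hs
    set b : ℂ := (s : ℂ) - (Real.pi : ℂ) * Complex.I with hb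
    have hbre : b.re = s := by simp [hb]
    have hbim : b.im = -Real.pi := by simp [hb]
    set A : ℝ → ℝ := fun u => Real.exp (-(s * u ^ 2)) with hA
    set A' : ℝ → ℝ := fun u => Real.exp (-(s * u ^ 2)) * -(s * (2 * u)) with hA'
    have hAd : ∀ u, HasDerivAt A (A' u) u := fun u =>
      ((((hasDerivAt_id u).pow 2).const_mul s).neg.exp).congr_deriv (by simp [hA'])
    have hA'c : Continuous A' := by simp only [hA']; fun_prop
    have hAc : Continuous A := by simp only [hA]; fun_prop
    have hfe : ∀ u : ℝ, Complex.exp (-b * (u : ℂ) ^ 2) = (A u : ℂ) * ch (u ^ 2 / 2) := by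
      intro u
      rw [hA, Complex.ofReal_exp, ch, ← Complex.exp_add, hb]
      congr 1
      push_cast
      ring
    set f : ℝ → ℂ := fun u => Complex.exp (-b * (u : ℂ) ^ 2) with hf
    have hfc : Continuous f := by simp only [hf]; fun_prop
    have hinteg : Integrable f := integrable_cexp_neg_mul_sq (by rw [hbre]; exact hs)
    have hfull : ∫ u : ℝ, f u = ((Real.pi : ℂ) / b) ^ (1 / 2 : ℂ) :=
      integral_gaussian_complex (by rw [hbre]; exact hs)
    have htail : ∀ S, R ≤ S → ‖∫ u in R..S, f u‖ ≤ 1 / R := by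
      intro S hS
      rw [intervalIntegral.integral_congr fun u _ => hfe u]
      refine (norm_integral_amp_le hS hAd hA'c (fun u hu => ?_) (Real.exp_pos _).le
        continuous_ch_sq fun x hx => norm_sq_tail_le hR hx.1).trans ?_
      · simp only [hA']
        have : 0 ≤ s * (2 * u) := mul_nonneg hs.le (by linarith [hu.1])
        nlinarith [Real.exp_pos (-(s * u ^ 2))]
      · refine mul_le_of_le_one_left (by positivity) (Real.exp_le_one_iff.2 ?_)
        nlinarith [sq_nonneg R]
    have hev : ∀ u v, ∫ x in u..v, f x = ∫ x in (-v)..(-u), f x := fun u v => by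
      rw [← intervalIntegral.integral_comp_neg]
      exact intervalIntegral.integral_congr fun x _ => by simp [hf]
    have hfull2 : ‖(∫ u : ℝ, f u) - ∫ u in (-R)..R, f u‖ ≤ 2 / R := by
      refine le_of_tendsto ((((intervalIntegral_tendsto_integral hinteg
        tendsto_neg_atTop_atBot tendsto_id)).sub_const _).norm) ?_
      filter_upwards [eventually_ge_atTop R] with S hS
      have hi : ∀ u v, IntervalIntegrable f volume u v := fun u v => hfc.intervalIntegrable u v
      have e : (∫ u in (-S)..S, f u) - (∫ u in (-R)..R, f u)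
          = (∫ u in (-S)..(-R), f u) + ∫ u in R..S, f u := by
        rw [← intervalIntegral.integral_add_adjacent_intervals (hi (-S) (-R)) (hi (-R) S),
          ← intervalIntegral.integral_add_adjacent_intervals (hi (-R) R) (hi R S)]
        ring
      simp only [id_eq]
      rw [e, hev (-S) (-R), neg_neg, neg_neg]
      refine (norm_add_le _ _).trans ((add_le_add (htail S hS) (htail S hS)).trans (le_of_eq ?_))
      ring
    have hcut : ‖(∫ u in (-R)..R, f u) - fres R‖ ≤ 2 * R * (s * R ^ 2) := by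
      rw [fres, ← intervalIntegral.integral_sub (hfc.intervalIntegrable _ _)
        (continuous_ch_sq.intervalIntegrable _ _)]
      refine (intervalIntegral.norm_integral_le_of_norm_le_const (C := s * R ^ 2)
        fun u hu => ?_).trans (le_of_eq ?_)
      · rw [Set.uIoc_of_le (by linarith)] at hu
        have hu2 : u ^ 2 ≤ R ^ 2 := sq_le_sq' (by linarith [hu.1]) hu.2
        show ‖Complex.exp (-b * (u : ℂ) ^ 2) - ch (u ^ 2 / 2)‖ ≤ _
        rw [hfe, show (A u : ℂ) * ch (u ^ 2 / 2) - ch (u ^ 2 / 2)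
          = ((A u - 1 : ℝ) : ℂ) * ch (u ^ 2 / 2) by push_cast; ring, norm_mul, norm_ch, mul_one,
          Complex.norm_real, Real.norm_eq_abs, abs_le]
        have h1 := Real.add_one_le_exp (-(s * u ^ 2))
        have h2 : Real.exp (-(s * u ^ 2)) ≤ 1 := Real.exp_le_one_iff.2 (by nlinarith [sq_nonneg u])
        have h3 := mul_le_mul_of_nonneg_left hu2 hs.le
        simp only [hA]
        constructor <;> nlinarith [sq_nonneg R]
      · rw [abs_of_nonneg (by linarith)]; ring
    have hnorm : ‖∫ u : ℝ, f u‖ = (Real.pi / Real.sqrt (s ^ 2 + Real.pi ^ 2)) ^ (1 / 2 : ℝ) := by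
      have he : (1 / 2 : ℂ) = ((1 / 2 : ℝ) : ℂ) := by push_cast; ring
      rw [hfull, he, Complex.norm_cpow_real, norm_div, Complex.norm_real, Real.norm_eq_abs,
        abs_of_pos Real.pi_pos, Complex.norm_def, Complex.normSq_apply, hbre, hbim]
      congr 3
      ring
    rw [← hnorm]
    refine (abs_norm_sub_norm_le _ _).trans ?_
    have h1 := norm_sub_le_norm_sub_add_norm_sub ζ (fres R) (∫ u : ℝ, f u)
    have h2 := norm_sub_le_norm_sub_add_norm_sub (fres R) (∫ u in (-R)..R, f u) (∫ u : ℝ, f u)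
    have r1 := norm_sub_rev ζ (fres R)
    have r2 := norm_sub_rev (fres R) (∫ u in (-R)..R, f u)
    have r3 := norm_sub_rev (∫ u in (-R)..R, f u) (∫ u : ℝ, f u)
    have h3 := hlim R hR
    have e : 4 / R = 2 / R + 2 / R := by ring
    linarith
  by_contra hne
  set η := |‖ζ‖ - 1| with hη
  have hη0 : 0 < η := abs_pos.2 (sub_ne_zero.2 hne)
  set R := 16 / η with hR
  have hR0 : 0 < R := by positivity
  set s := min (η / 4) (η / (8 * R * R ^ 2)) with hs
  have hs0 : 0 < s := lt_min (by positivity) (by positivity)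
  have h1 := hclose R s hR0 hs0
  set r := Real.pi / Real.sqrt (s ^ 2 + Real.pi ^ 2) with hr
  have hsq : Real.pi ≤ Real.sqrt (s ^ 2 + Real.pi ^ 2) :=
    Real.le_sqrt_of_sq_le (by nlinarith [sq_nonneg s])
  have hsq2 : Real.sqrt (s ^ 2 + Real.pi ^ 2) ≤ s + Real.pi :=
    Real.sqrt_le_iff.2 ⟨by positivity, by nlinarith [Real.pi_pos]⟩
  have hsq0 : 0 < Real.sqrt (s ^ 2 + Real.pi ^ 2) := lt_of_lt_of_le Real.pi_pos hsq
  have hr1 : r ≤ 1 := by rw [hr, div_le_one hsq0]; exact hsq
  have hr0 : 0 < r := div_pos Real.pi_pos hsq0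
  have hr2 : 1 - s ≤ r := by
    rw [hr, le_div_iff₀ hsq0]
    rcases le_or_gt 1 s with h | h
    · nlinarith [Real.pi_pos]
    · nlinarith [mul_le_mul_of_nonneg_left hsq2 (sub_nonneg.2 h.le), Real.pi_gt_three]
  have hr3 : r ≤ r ^ (1 / 2 : ℝ) := by
    calc r = r ^ (1 : ℝ) := (Real.rpow_one r).symm
      _ ≤ _ := Real.rpow_le_rpow_of_exponent_ge hr0 hr1 (by norm_num)
  have hr4 : r ^ (1 / 2 : ℝ) ≤ 1 := Real.rpow_le_one hr0.le hr1 (by norm_num)
  have h2 : 4 / R = η / 4 := by rw [hR]; field_simp; ring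
  have h3 : 2 * R * (s * R ^ 2) ≤ η / 4 := by
    calc 2 * R * (s * R ^ 2) ≤ 2 * R * (η / (8 * R * R ^ 2) * R ^ 2) := by
          gcongr; exact min_le_right _ _
      _ = η / 4 := by field_simp; ring
  have h4 : η ≤ |‖ζ‖ - r ^ (1 / 2 : ℝ)| + |r ^ (1 / 2 : ℝ) - 1| := abs_sub_le _ _ _
  have h5 : |r ^ (1 / 2 : ℝ) - 1| ≤ η / 4 := by
    rw [abs_le]; constructor <;> linarith [min_le_left (η / 4) (η / (8 * R * R ^ 2))]
  linarith

end Vale.Agent.P110.Full
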