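import Vale.Agent.P110.Full.OwnerMoment
import Vale.Agent.P110.Full.Statements

/-!
Random owners: some antisymmetric choice gives nearly the expected numbers of groups at the starts.
-/

noncomputable section

namespace Vale.Agent.P110.Full

open Finset
open scoped Classical

lemma exists_generic_fibre {I : Type} [Fintype I] {R : ℕ} (v : I → Fin R → ℤ)
    (hprim : ∀ i, ∃ ξ : Fin R → ℤ, ∑ l, v i l * ξ l = 1)
    (hdist : ∀ i j, i ≠ j → v i ≠ v j ∧ v i ≠ -v j) :
    ∃ N₀ : ℕ, ∀ q, N₀ ≤ q → Generic q v := by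
  set A : I → I → Fin R → Fin R → ℕ := fun j k l m =>
    (v j l * v k m - v j m * v k l).natAbs + ((v j l).natAbs + (v k l).natAbs)
  refine ⟨(∑ j, ∑ k, ∑ l, ∑ m, A j k l m) + 1, fun q hq => ?_⟩
  have hA : ∀ j k l m, A j k l m < q := fun j k l m => by
    have h1 : A j k l m ≤ ∑ m', A j k l m' := single_le_sum (fun _ _ => Nat.zero_le _) (mem_univ m)
    have h2 : ∑ m', A j k l m' ≤ ∑ l', ∑ m', A j k l' m' :=
      single_le_sum (f := fun l' => ∑ m', A j k l' m') (fun _ _ => Nat.zero_le _) (mem_univ l)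
    have h3 : ∑ l', ∑ m', A j k l' m' ≤ ∑ k', ∑ l', ∑ m', A j k' l' m' :=
      single_le_sum (f := fun k' => ∑ l', ∑ m', A j k' l' m') (fun _ _ => Nat.zero_le _)
        (mem_univ k)
    have h4 : ∑ k', ∑ l', ∑ m', A j k' l' m' ≤ ∑ j', ∑ k', ∑ l', ∑ m', A j' k' l' m' :=
      single_le_sum (f := fun j' => ∑ k', ∑ l', ∑ m', A j' k' l' m') (fun _ _ => Nat.zero_le _)
        (mem_univ j)
    omega
  refine ⟨hprim, fun j k hjk s hs => ?_, fun j k hjk => ?_⟩
  · obtain ⟨l, hl⟩ : ∃ l, v j l + s * v k l ≠ 0 := by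
      by_contra hn
      push Not at hn
      rcases hs with rfl | rfl
      · exact (hdist j k hjk).2 (funext fun l => by
          have := hn l; simp only [Pi.neg_apply]; linarith)
      · exact (hdist j k hjk).1 (funext fun l => by have := hn l; linarith)
    refine ⟨l, cast_ne_zero hl ?_⟩
    have := hA j k l l
    have h' : (v j l + s * v k l).natAbs ≤ (v j l).natAbs + (v k l).natAbs := by
      refine (Int.natAbs_add_le _ _).trans ?_
      rcases hs with rfl | rfl <;> simp
    simp only [A] at this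
    omega
  · obtain ⟨l, m, hlm⟩ := minor_ne (hprim j) (hprim k) (hdist j k hjk).1 (hdist j k hjk).2
    refine ⟨l, m, cast_ne_zero hlm ?_⟩
    have := hA j k l m
    simp only [A] at this
    omega

lemma count_bound {I : Type} [Fintype I] [DecidableEq I] {q : ℕ} [NeZero (2 * q)] (hq : 0 < q)
    {p : I → ℝ} (hp0 : ∀ i, 0 ≤ p i) (hp : 2 * ∑ i, p i = 1) (i : I) {ρ : ℝ} (hρ : 0 < ρ) :
    av p (fun f => |∑ B, own hq f B i - 2 * q * p i|) ≤ 1 / ρ + ρ * q := by
  have hq' : (0 : ℝ) < q := by exact_mod_cast hq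
  have ho : ∀ B, av p (fun f => own hq f B i) = p i := fun B => by
    simpa using av_own (M := Unit) hp hq (fun _ => B) (fun _ _ _ => rfl) (fun _ => i)
  have hoo : ∀ B B', av p (fun f => own hq f B i * own hq f B' i) ≤
      p i * p i + if Coinc B B' then 1 else 0 := by
    intro B B'
    by_cases h : Coinc B B'
    · rw [if_pos h]
      have := (av_range (F := fun f => own hq f B i * own hq f B' i) hp0 hp fun f =>
        ⟨mul_nonneg (own_nonneg hq f B i).1 (own_nonneg hq f B' i).1,
          mul_le_one₀ (own_nonneg hq f B i).2 (own_nonneg hq f B' i).1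
            (own_nonneg hq f B' i).2⟩).2
      nlinarith [hp0 i]
    · rw [if_neg h, add_zero]
      have := av_own hp hq (![B, B']) (fun m m' hm => ?_) (fun _ => i)
      · rw [Fin.prod_univ_two] at this
        rw [← this]
        exact le_of_eq (congrArg (av p) (funext fun f => by simp [Fin.prod_univ_two]))
      · by_contra hne
        have hc := coinc_of_rep hq hm
        fin_cases m <;> fin_cases m'
        · exact hne rfl
        · exact h hc
        · exact h (by
            rcases hc with hc | hc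
            · exact Or.inl hc.symm
            · refine Or.inr ?_
              simp only [Fin.mk_one, Fin.zero_eta, Matrix.cons_val_one, Matrix.cons_val_zero] at hc
              rw [hc]; ring)
        · exact hne rfl
  have h2 : ∀ B : ZMod (2 * q), (∑ B', if Coinc B B' then (1 : ℝ) else 0) ≤ 2 := by
    intro B
    rw [sum_boole]
    have : #{B' | Coinc B B'} ≤ #({B, -1 - B} : Finset (ZMod (2 * q))) := card_le_card fun B' h => by
      simp only [mem_filter, mem_univ, true_and, mem_insert, mem_singleton] at h ⊢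
      rcases h with h | h
      · exact Or.inl h.symm
      · exact Or.inr (by rw [h]; ring)
    exact_mod_cast this.trans card_le_two
  have hb : ∑ _x ∈ ({()} : Finset Unit), av p (fun f => (∑ B, own hq f B i - 2 * q * p i) ^ 2) ≤
      4 * q := by
    rw [sum_singleton]
    set c := 2 * (q : ℝ) * p i with hc
    have e : ∀ f : Fin q → I × Bool, (∑ B, own hq f B i - c) ^ 2 =
        ∑ B, ∑ B', own hq f B i * own hq f B' i +
          (-(2 * c) * ∑ B, own hq f B i + c ^ 2 * 1) := by
      intro f; rw [← sum_mul_sum]; ring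
    simp only [e, av_add, av_sum, av_mul, ho, av_one hp, sum_const, card_univ, ZMod.card,
      nsmul_eq_mul]
    have := sum_le_sum (s := (univ : Finset (ZMod (2 * q)))) fun B _ =>
      (sum_le_sum (s := (univ : Finset (ZMod (2 * q)))) fun B' _ => hoo B B').trans
        (le_of_eq (sum_add_distrib (f := fun _ => p i * p i)
          (g := fun B' => if Coinc B B' then (1 : ℝ) else 0)))
    simp only [sum_add_distrib, sum_const, card_univ, ZMod.card, nsmul_eq_mul] at this
    have h4 := sum_le_sum (s := (univ : Finset (ZMod (2 * q)))) fun B _ => h2 B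
    simp only [sum_const, card_univ, ZMod.card, nsmul_eq_mul] at h4
    push_cast at this h4 ⊢
    rw [hc]
    linarith
  have := av_abs hp0 hp ({()} : Finset Unit)
    (fun _ f => ∑ B, own hq f B i - 2 * q * p i) (lam := ρ * (2 * q)) (by positivity) hb
  simp only [sum_singleton, card_singleton, Nat.cast_one, mul_one] at this
  refine this.trans (le_of_eq ?_)
  field_simp
  ring

lemma slot_card {I : Type} [Fintype I] [DecidableEq I] {R q W : ℕ} [NeZero (2 * q)] (hq : 0 < q)
    (v : I → Fin R → ℤ) (w : I → ℕ) (f : Fin q → I × Bool) (i : I) (hW : 0 < W) (hw : 0 < w i)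
    (hdvd : w i ∣ W) {l : ℕ} (hl : l < W / w i) (B : ZMod (2 * q)) :
    (Nat.card {x : (Fin R → ZMod (2 * q)) × Fin W // Good q W v w (mk hq f) x ∧
        StartsAt q W v w i x (((W : ℤ) * (B.val : ℤ) + (w i * l : ℕ) : ℤ) : ZMod (2 * q * W))} : ℝ) =
      ∑ x ∈ Slots q R W (W / w i) l with blk q W v w i x = B, ind hq W v w f x := by
  rw [Nat.card_eq_fintype_card, Fintype.card_subtype, Slots, filter_filter, sum_filter,
    natCast_card_filter]
  refine sum_congr rfl fun x _ => ?_
  simp only [startsAt_iff v w i hW hw hdvd x B hl, good_iff]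
  have hi : ind hq W v w f x = if ∀ j, mk hq f (blk q W v w j x) = (j, true) then 1 else 0 := by
    simp only [ind, own]
    split_ifs with h
    · exact prod_eq_one fun j _ => if_pos (h j)
    · push Not at h
      obtain ⟨j, hj⟩ := h
      exact prod_eq_zero (mem_univ j) (if_neg hj)
  rw [hi]
  split_ifs <;> tauto

theorem owner : OwnerStatement := by
  intro I _ _ R hR v hprim hdist w W hW hw p hp hsum η hη
  have : Nonempty I := by
    by_contra h
    rw [not_nonempty_iff] at h
    simp at hsum
  obtain ⟨N₀, hN₀⟩ := exists_generic_fibre v hprim hdist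
  set n : ℝ := (Fintype.card I : ℝ) with hn
  have hn1 : 0 < n := by rw [hn]; exact_mod_cast Fintype.card_pos
  have hp0 : ∀ i, 0 ≤ p i := fun i => (hp i).le
  set rest : I → ℝ := fun i => ∏ j ∈ univ.erase i, p j with hrest
  have hr : ∀ i, 0 < rest i := fun i => prod_pos fun j _ => hp j
  set Q : ℝ := (∑ i, 48 * n ^ 4 / (η ^ 2 * rest i ^ 2)) + 4 * n ^ 2 / η ^ 2 with hQ
  refine ⟨N₀ + ⌈Q⌉₊ + 3, fun q hq hprime => ?_⟩
  have := Fact.mk hprime
  have hq0 : 0 < q := by omega
  have : NeZero (2 * q) := ⟨by omega⟩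
  have hG := hN₀ q (by omega)
  have hqQ : Q < q := lt_of_le_of_lt (Nat.le_ceil _) (by exact_mod_cast (by omega : ⌈Q⌉₊ < q))
  have hq' : (0 : ℝ) < q := by exact_mod_cast hq0
  have hd : ∀ i, 0 < W / w i := fun i => Nat.div_pos (Nat.le_of_dvd hW (hw i).2) (hw i).1
  let K : I → ℝ := fun i => (w i : ℝ) * (2 * q : ℝ) ^ (R - 1)
  have hK : ∀ i, 0 < K i := fun i =>
    mul_pos (by exact_mod_cast (hw i).1) (pow_pos (by positivity) _)
  let X : I → ℕ → ZMod (2 * q) → (Fin q → I × Bool) → ℝ := fun i l B f =>
    ∑ x ∈ Slots q R W (W / w i) l with blk q W v w i x = B, ind hq0 W v w f x -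
      K i * rest i * own hq0 f B i
  let dev : I → (Fin q → I × Bool) → ℝ := fun i f =>
    ∑ l ∈ range (W / w i), ∑ B, |X i l B f|
  let cnt : I → (Fin q → I × Bool) → ℝ := fun i f => |∑ B, own hq0 f B i - 2 * q * p i|
  let D : I → ℝ := fun i => η * (2 * q * ((W / w i : ℕ) : ℝ) * (K i * rest i))
  have hD : ∀ i, 0 < D i := fun i => by
    have := hr i; have := hK i; have : (0 : ℝ) < (W / w i : ℕ) := by exact_mod_cast hd i
    positivity
  have term : ∀ i, (D i)⁻¹ * av p (dev i) + (η * (2 * q))⁻¹ * av p (cnt i) < 1 / n := by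
    intro i
    have hri := hr i
    have hKi := hK i
    have hdi : (0 : ℝ) < (W / w i : ℕ) := by exact_mod_cast hd i
    have hQi : 48 * n ^ 4 / (η ^ 2 * rest i ^ 2) < q ∧ 4 * n ^ 2 / η ^ 2 < q := by
      have h1 := single_le_sum (f := fun i => 48 * n ^ 4 / (η ^ 2 * rest i ^ 2))
        (fun j _ => by positivity) (mem_univ i)
      have h2 : 0 ≤ ∑ i, 48 * n ^ 4 / (η ^ 2 * rest i ^ 2) := sum_nonneg fun j _ => by positivity
      have h3 : 0 ≤ 4 * n ^ 2 / η ^ 2 := by positivity
      constructor <;> linarith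
    rw [div_lt_iff₀ (by positivity), div_lt_iff₀ (by positivity)] at hQi
    set ρ := η * rest i / (2 * n)
    have hρ : 0 < ρ := by positivity
    have e1 : av p (dev i) ≤
        (W / w i : ℕ) * (12 * n ^ 2 * K i / ρ + ρ * K i * q) := by
      simp only [dev]
      rw [av_sum]
      calc ∑ l ∈ range (W / w i), av p (fun f => ∑ B, |X i l B f|)
          ≤ ∑ l ∈ range (W / w i), (12 * n ^ 2 * K i / ρ + ρ * K i * q) := by
            refine sum_le_sum fun l hl => ?_
            refine (av_abs hp0 hsum univ (X i l) (lam := ρ * K i) (by positivity)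
              (moment hG hR hp0 hsum hq0 i (hw i).1 (hw i).2 (mem_range.1 hl))).trans (le_of_eq ?_)
            rw [card_univ, ZMod.card]
            push_cast
            simp only [K, ← hn]
            field_simp
            ring
        _ = _ := by rw [sum_const, card_range, nsmul_eq_mul]
    have e2 := count_bound hq0 hp0 hsum i (ρ := η / (2 * n)) (by positivity)
    have f1 : (D i)⁻¹ * av p (dev i) < 1 / (2 * n) := by
      rw [inv_mul_lt_iff₀ (hD i)]
      refine e1.trans_lt ?_
      have e : D i * (1 / (2 * n)) - (W / w i : ℕ) * (12 * n ^ 2 * K i / ρ + ρ * K i * q) =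
          (W / w i : ℕ) * K i / (2 * η * rest i * n) *
            (q * (η ^ 2 * rest i ^ 2) - 48 * n ^ 4) := by
        simp only [D, ρ]
        field_simp
        ring
      have : 0 < (W / w i : ℕ) * K i / (2 * η * rest i * n) *
            (q * (η ^ 2 * rest i ^ 2) - 48 * n ^ 4) :=
        mul_pos (by positivity) (by linarith [hQi.1])
      linarith
    have f2 : (η * (2 * q))⁻¹ * av p (cnt i) < 1 / (2 * n) := by
      rw [inv_mul_lt_iff₀ (by positivity)]
      refine e2.trans_lt ?_
      have e : η * (2 * q) * (1 / (2 * n)) - (1 / (η / (2 * n)) + η / (2 * n) * q) =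
          (q * η ^ 2 - 4 * n ^ 2) / (2 * n * η) := by
        field_simp
        ring
      have : 0 < (q * η ^ 2 - 4 * n ^ 2) / (2 * n * η) :=
        div_pos (by linarith [hQi.2]) (by positivity)
      linarith
    calc _ < 1 / (2 * n) + 1 / (2 * n) := add_lt_add f1 f2
      _ = 1 / n := by ring
  obtain ⟨f, hf⟩ := exists_le_av (q := q) hp0 hsum
    (F := fun f => ∑ i, ((D i)⁻¹ * dev i f + (η * (2 * q))⁻¹ * cnt i f)) (b := 1) (by
    rw [av_sum]
    simp only [av_add, av_mul]
    calc _ < ∑ _i : I, 1 / n := sum_lt_sum_of_nonempty univ_nonempty fun i _ => term i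
      _ = 1 := by rw [sum_const, card_univ, nsmul_eq_mul, ← hn]; field_simp)
  have hdev0 : ∀ i, 0 ≤ dev i f := fun i =>
    sum_nonneg fun l _ => sum_nonneg fun B _ => abs_nonneg _
  have each : ∀ i, dev i f ≤ D i ∧ cnt i f ≤ η * (2 * q) := by
    intro i
    have h1 : 0 ≤ (D i)⁻¹ * dev i f := mul_nonneg (inv_nonneg.2 (hD i).le) (hdev0 i)
    have h2 : 0 ≤ (η * (2 * q))⁻¹ * cnt i f := mul_nonneg (by positivity) (abs_nonneg _)
    have h3 := single_le_sum (f := fun i => (D i)⁻¹ * dev i f + (η * (2 * q))⁻¹ * cnt i f)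
      (fun j _ => add_nonneg (mul_nonneg (inv_nonneg.2 (hD j).le) (hdev0 j))
        (mul_nonneg (by positivity) (abs_nonneg _))) (mem_univ i)
    constructor
    · have : (D i)⁻¹ * dev i f ≤ 1 := by linarith
      rwa [inv_mul_le_iff₀ (hD i), mul_one] at this
    · have : (η * (2 * q))⁻¹ * cnt i f ≤ 1 := by linarith
      rwa [inv_mul_le_iff₀ (by positivity), mul_one] at this
  refine ⟨mk hq0 f, anti_mk hq0 f, fun i => ?_, fun i => ?_⟩
  · have : (Nat.card {B // mk hq0 f B = (i, true)} : ℝ) = ∑ B, own hq0 f B i := by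
      rw [Nat.card_eq_fintype_card, Fintype.card_subtype, natCast_card_filter]
      rfl
    rw [this]
    exact (each i).2
  · refine le_trans ?_ (each i).1
    rw [finsum_eq_sum_of_fintype]
    simp only [dev]
    rw [sum_comm (s := (univ : Finset {B // mk hq0 f B = (i, true)}))]
    refine sum_le_sum fun l hl => ?_
    calc _ = ∑ B : {B // mk hq0 f B = (i, true)}, |X i l B f| := by
          refine sum_congr rfl fun B _ => ?_
          rw [slot_card hq0 v w f i hW (hw i).1 (hw i).2 (mem_range.1 hl) B]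
          simp [X, K, own, B.2, hrest]
      _ = ∑ B ∈ univ.filter (fun B => mk hq0 f B = (i, true)), |X i l B f| :=
          (sum_subtype _ (by simp) (fun B => |X i l B f|)).symm
      _ ≤ _ := sum_le_sum_of_subset_of_nonneg (filter_subset _ _) fun B _ _ => abs_nonneg _

end Vale.Agent.P110.Full
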