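import Vale.Agent.P110.Full.Defs

/-!
Counting solutions of one or two linear congruences over `ZMod (2 * q)`, and the blocks of groups.
-/

noncomputable section

namespace Vale.Agent.P110.Full

open Finset

/-- The block of class `i` of the group `x`. -/
def blk {I : Type} {R : ℕ} (q W : ℕ) (v : I → Fin R → ℤ) (w : I → ℕ) (i : I)
    (x : (Fin R → ZMod (2 * q)) × Fin W) : ZMod (2 * q) :=
  (∑ l, (v i l : ZMod (2 * q)) * x.1 l) + ((w i * (x.2 : ℕ) / W : ℕ) : ZMod (2 * q))

lemma good_iff {I : Type} {R : ℕ} {q W : ℕ} {v : I → Fin R → ℤ} {w : I → ℕ}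
    {o : ZMod (2 * q) → I × Bool} {x : (Fin R → ZMod (2 * q)) × Fin W} :
    Good q W v w o x ↔ ∀ i, o (blk q W v w i x) = (i, true) := Iff.rfl

/-- All fibres of a surjective homomorphism have the same size. -/
lemma fibre_card {A B : Type*} [AddCommGroup A] [AddCommGroup B] [Fintype A] [Fintype B]
    [DecidableEq B] (φ : A →+ B) (hφ : Function.Surjective φ) (y : B) :
    #{x | φ x = y} * Fintype.card B = Fintype.card A := by
  have h1 := card_eq_sum_card_fiberwise (f := φ) (s := (univ : Finset A)) (t := (univ : Finset B))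
    fun x _ => mem_univ _
  rw [sum_congr rfl fun z _ => (AddMonoidHom.card_fiber_eq_of_mem_range φ
    (hφ z) (hφ y) : #{x | φ x = z} = #{x | φ x = y})] at h1
  rw [sum_const, smul_eq_mul, card_univ, card_univ] at h1
  rw [h1, mul_comm]

/-- A linear form on `ZMod (2 * q)` read modulo `q`. -/
def lin {R : ℕ} (q : ℕ) (u : Fin R → ℤ) : (Fin R → ZMod (2 * q)) →+ ZMod q where
  toFun c := ∑ l, (u l : ZMod q) * ZMod.castHom (dvd_mul_left q 2) (ZMod q) (c l)
  map_zero' := by simp
  map_add' c c' := by simp [mul_add, sum_add_distrib]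

lemma cast_lin {R : ℕ} (q : ℕ) (u : Fin R → ℤ) (c : Fin R → ZMod (2 * q)) :
    ZMod.castHom (dvd_mul_left q 2) (ZMod q) (∑ l, (u l : ZMod (2 * q)) * c l) = lin q u c := by
  simp [lin]

lemma lin_single {R : ℕ} (q : ℕ) (u : Fin R → ℤ) (l : Fin R) (z : ZMod (2 * q)) :
    lin q u (Pi.single l z) = (u l : ZMod q) * ZMod.castHom (dvd_mul_left q 2) (ZMod q) z := by
  show ∑ k, (u k : ZMod q) * ZMod.castHom (dvd_mul_left q 2) (ZMod q)
    ((Pi.single l z : Fin R → ZMod (2 * q)) k) = _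
  rw [Finset.sum_eq_single l (fun k _ hk => by simp [hk]) (fun h => absurd (mem_univ _) h)]
  simp

lemma cast_ne_zero {q : ℕ} {z : ℤ} (hz : z ≠ 0) (hq : z.natAbs < q) : (z : ZMod q) ≠ 0 := by
  intro h
  rw [ZMod.intCast_zmod_eq_zero_iff_dvd] at h
  have := Nat.le_of_dvd (Int.natAbs_pos.2 hz) (Int.natAbs_dvd_natAbs.2 h)
  simp at this
  omega

/-- Primitive vectors that are not opposite or equal are independent. -/
lemma minor_ne {R : ℕ} {u v : Fin R → ℤ} (hu : ∃ ξ : Fin R → ℤ, ∑ l, u l * ξ l = 1)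
    (hv : ∃ ξ : Fin R → ℤ, ∑ l, v l * ξ l = 1) (h1 : u ≠ v) (h2 : u ≠ -v) :
    ∃ l m, u l * v m - u m * v l ≠ 0 := by
  by_contra hn
  push Not at hn
  obtain ⟨ξ, hξ⟩ := hu
  obtain ⟨ζ, hζ⟩ := hv
  set s := ∑ l, v l * ξ l with hs
  have key : ∀ m, v m = s * u m := fun m => by
    calc v m = (∑ l, u l * ξ l) * v m := by rw [hξ, one_mul]
      _ = ∑ l, ξ l * (u m * v l) := by
        rw [sum_mul]; exact sum_congr rfl fun l _ => by linear_combination ξ l * hn l m
      _ = s * u m := by rw [hs, sum_mul]; exact sum_congr rfl fun l _ => by ring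
  have : s * (∑ l, u l * ζ l) = 1 := by
    rw [← hζ, mul_sum]; exact sum_congr rfl fun l _ => by rw [key l]; ring
  rcases Int.eq_one_or_neg_one_of_mul_eq_one this with e | e <;> rw [e] at key
  · exact h1 (funext fun m => by simpa using (key m).symm)
  · exact h2 (funext fun m => by simp [key m])

variable {R q : ℕ} [Fact q.Prime] [NeZero (2 * q)]

/-- One congruence modulo `q` cuts by a factor `q`. -/
lemma one_form {u : Fin R → ℤ} (hu : ∃ l, (u l : ZMod q) ≠ 0) (a : ZMod q) :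
    #{c : Fin R → ZMod (2 * q) | lin q u c = a} * q = (2 * q) ^ R := by
  obtain ⟨l, hl⟩ := hu
  have h := fibre_card (lin q u) (fun z => by
    obtain ⟨z', hz'⟩ := ZMod.castHom_surjective (dvd_mul_left q 2) (z / (u l : ZMod q))
    exact ⟨Pi.single l z', by rw [lin_single, hz']; field_simp⟩) a
  simpa using h

/-- Two independent congruences modulo `q` cut by a factor `q ^ 2`. -/
lemma two_forms {u v : Fin R → ℤ} (h : ∃ l m, ((u l * v m - u m * v l : ℤ) : ZMod q) ≠ 0)
    (a b : ZMod q) :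
    #{c : Fin R → ZMod (2 * q) | lin q u c = a ∧ lin q v c = b} * (q * q) = (2 * q) ^ R := by
  obtain ⟨l, m, hlm⟩ := h
  push_cast at hlm
  have h := fibre_card ((lin q u).prod (lin q v)) (fun z => by
    set D := (u l : ZMod q) * v m - u m * v l with hD
    obtain ⟨zl, hzl⟩ := ZMod.castHom_surjective (dvd_mul_left q 2)
      ((z.1 * (v m : ZMod q) - z.2 * u m) / D)
    obtain ⟨zm, hzm⟩ := ZMod.castHom_surjective (dvd_mul_left q 2)
      ((z.2 * (u l : ZMod q) - z.1 * v l) / D)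
    refine ⟨Pi.single l zl + Pi.single m zm, ?_⟩
    ext <;> simp only [map_add, AddMonoidHom.prod_apply, Prod.fst_add, Prod.snd_add, lin_single,
      hzl, hzm] <;> field_simp <;> rw [hD] <;> ring) (a, b)
  simpa [Prod.ext_iff] using h

omit [Fact q.Prime] in
/-- A primitive form takes every value modulo `2 * q` equally often. -/
lemma primitive_form {u : Fin R → ℤ} (hu : ∃ ξ : Fin R → ℤ, ∑ l, u l * ξ l = 1)
    (a : ZMod (2 * q)) :
    #{c : Fin R → ZMod (2 * q) | ∑ l, (u l : ZMod (2 * q)) * c l = a} * (2 * q) =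
      (2 * q) ^ R := by
  obtain ⟨ξ, hξ⟩ := hu
  have h := fibre_card (AddMonoidHom.mk' (fun c : Fin R → ZMod (2 * q) =>
      ∑ l, (u l : ZMod (2 * q)) * c l) fun c c' => by simp [mul_add, sum_add_distrib])
    (fun z => ⟨fun l => (ξ l : ZMod (2 * q)) * z, by
      have : (∑ l, (u l : ZMod (2 * q)) * ξ l) = 1 := by exact_mod_cast congrArg (Int.cast (R := ZMod (2 * q))) hξ
      simp [← mul_assoc, ← sum_mul, this]⟩) a
  simpa using h

omit [Fact q.Prime] in
/-- A run of class `i` starting at an aligned slot comes from one block and one residue. -/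
lemma startsAt_iff {I : Type} {W : ℕ} (v : I → Fin R → ℤ) (w : I → ℕ) (i : I) (hW : 0 < W)
    (hw : 0 < w i) (hdvd : w i ∣ W) (x : (Fin R → ZMod (2 * q)) × Fin W) (B : ZMod (2 * q))
    {l : ℕ} (hl : l < W / w i) :
    StartsAt q W v w i x
        (((W : ℤ) * (B.val : ℤ) + (w i * l : ℕ) : ℤ) : ZMod (2 * q * W)) ↔
      (x.2 : ℕ) % (W / w i) = l ∧ blk q W v w i x = B := by
  obtain ⟨d, hd⟩ := hdvd
  have hdiv : W / w i = d := by rw [hd, Nat.mul_div_cancel_left _ hw]
  rw [hdiv] at hl ⊢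
  set t : ℕ := (x.2 : ℕ)
  have hblk : w i * t / W = t / d := by rw [hd, Nat.mul_div_mul_left _ _ hw]
  set V : ℤ := ∑ k, v i k * ((x.1 k).val : ℤ) with hV
  have hcast : ((V + (t / d : ℕ) - (B.val : ℤ) : ℤ) : ZMod (2 * q)) = blk q W v w i x - B := by
    simp only [blk, show w i * (x.2 : ℕ) / W = t / d from hblk]
    generalize t / d = m
    simp [hV]
  have hsplit : (W : ℤ) * V + ((w i * t : ℕ) : ℤ) - ((W : ℤ) * (B.val : ℤ) + (w i * l : ℕ)) =
      (W : ℤ) * (V + (t / d : ℕ) - (B.val : ℤ)) + (w i : ℤ) * ((t % d : ℕ) - (l : ℤ)) := by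
    have h := Nat.mod_add_div t d
    have h' : ((t % d : ℕ) : ℤ) + (d : ℤ) * ((t / d : ℕ) : ℤ) = (t : ℤ) := by exact_mod_cast h
    rw [hd]
    push_cast at h' ⊢
    linear_combination (-(w i : ℤ)) * h'
  rw [StartsAt, ← sub_eq_zero, ← Int.cast_sub, ZMod.intCast_zmod_eq_zero_iff_dvd, hsplit]
  constructor
  · intro h
    have hW' : (W : ℤ) ∣ (w i : ℤ) * ((t % d : ℕ) - (l : ℤ)) := by
      have := dvd_trans (show (W : ℤ) ∣ ((2 * q * W : ℕ) : ℤ) from
        Int.natCast_dvd_natCast.2 (dvd_mul_left W (2 * q))) h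
      exact (Int.dvd_add_right (dvd_mul_right _ _)).1 this
    have hlt : |((t % d : ℕ) : ℤ) - (l : ℤ)| < d := by
      have := Nat.mod_lt t (lt_of_le_of_lt (Nat.zero_le l) hl)
      rw [abs_lt]
      omega
    rw [hd] at hW'
    push_cast at hW'
    have h0 := Int.eq_zero_of_abs_lt_dvd
      ((mul_dvd_mul_iff_left (by exact_mod_cast hw.ne' : (w i : ℤ) ≠ 0)).1 hW') (by push_cast at hlt; exact hlt)
    refine ⟨by omega, ?_⟩
    have e0 : ((t % d : ℕ) : ℤ) - (l : ℤ) = 0 := by push_cast; exact h0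
    rw [e0, mul_zero, add_zero, show ((2 * q * W : ℕ) : ℤ) = (W : ℤ) * ((2 * q : ℕ) : ℤ) by
      push_cast; ring] at h
    rw [← sub_eq_zero, ← hcast, ZMod.intCast_zmod_eq_zero_iff_dvd]
    exact (mul_dvd_mul_iff_left (by exact_mod_cast hW.ne' : (W : ℤ) ≠ 0)).1 h
  · rintro ⟨ht, hB⟩
    rw [ht, sub_self, mul_zero, add_zero, show ((2 * q * W : ℕ) : ℤ) = (W : ℤ) * ((2 * q : ℕ) : ℤ) by
      push_cast; ring]
    refine mul_dvd_mul_left _ ?_
    rw [← ZMod.intCast_zmod_eq_zero_iff_dvd, hcast, hB, sub_self]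

/-- There are `w` residues of each kind. -/
lemma card_residue {W w l : ℕ} (hw : 0 < w) (hdvd : w ∣ W) (hl : l < W / w) :
    #{t : Fin W | (t : ℕ) % (W / w) = l} = w := by
  obtain ⟨d, rfl⟩ := hdvd
  rw [Nat.mul_div_cancel_left _ hw] at hl ⊢
  calc #{t : Fin (w * d) | (t : ℕ) % d = l} = #(univ : Finset (Fin w)) := by
        symm
        refine Finset.card_bij' (fun m _ => ⟨l + d * (m : ℕ), ?_⟩)
          (fun t _ => ⟨(t : ℕ) / d, ?_⟩) ?_ ?_ ?_ ?_
        · calc l + d * (m : ℕ) < d * ((m : ℕ) + 1) := by rw [mul_add, mul_one]; omega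
            _ ≤ d * w := Nat.mul_le_mul_left _ m.2
            _ = w * d := mul_comm _ _
        · exact (Nat.div_lt_iff_lt_mul (lt_of_le_of_lt (Nat.zero_le l) hl)).2 t.2
        · intro m _
          simp [Nat.mod_eq_of_lt hl]
        · intro t _
          simp
        · intro m _
          ext
          simp only
          rw [Nat.add_mul_div_left _ _ (lt_of_le_of_lt (Nat.zero_le l) hl), Nat.div_eq_of_lt hl,
            zero_add]
        · intro t ht
          ext
          simp only [mem_filter] at ht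
          simp only
          rw [← ht.2]
          exact Nat.mod_add_div _ _
    _ = w := by simp

end Vale.Agent.P110.Full
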