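import Vale.Agent.P110.Full.OwnerRandom

/-!
The mean square deviation of the number of good groups starting at a slot.
-/

noncomputable section

namespace Vale.Agent.P110.Full

open Finset
open scoped Classical

lemma split_card {A : Type*} [Fintype A] {W : ℕ} (P : A × Fin W → Prop) [DecidablePred P] :
    #{x | P x} = ∑ t : Fin W, #{a | P (a, t)} := by
  simp only [card_filter]
  rw [Fintype.sum_prod_type]
  exact sum_comm

/-- One if the group is good. -/
def ind {I : Type} [Fintype I] [DecidableEq I] {R q : ℕ} (hq : 0 < q) (W : ℕ)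
    (v : I → Fin R → ℤ) (w : I → ℕ) (f : Fin q → I × Bool)
    (x : (Fin R → ZMod (2 * q)) × Fin W) : ℝ :=
  ∏ j, own hq f (blk q W v w j x) j

variable {I : Type} [Fintype I] [DecidableEq I] {R q W : ℕ} [Fact q.Prime] [NeZero (2 * q)]
  {v : I → Fin R → ℤ} {w : I → ℕ}

/-- What the prime must not divide. -/
structure Generic (q : ℕ) (v : I → Fin R → ℤ) : Prop where
  primitive : ∀ i, ∃ ξ : Fin R → ℤ, ∑ l, v i l * ξ l = 1
  comb : ∀ j k, j ≠ k → ∀ s : ℤ, s = 1 ∨ s = -1 → ∃ l, ((v j l + s * v k l : ℤ) : ZMod q) ≠ 0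
  minor : ∀ j k, j ≠ k → ∃ l m, ((v j l * v k m - v j m * v k l : ℤ) : ZMod q) ≠ 0

omit [NeZero (2 * q)] in
lemma coinc_cast {B B' : ZMod (2 * q)} (h : Coinc B B') :
    ZMod.castHom (dvd_mul_left q 2) (ZMod q) B = ZMod.castHom (dvd_mul_left q 2) (ZMod q) B' ∨
    ZMod.castHom (dvd_mul_left q 2) (ZMod q) B + ZMod.castHom (dvd_mul_left q 2) (ZMod q) B' = -1 := by
  rcases h with rfl | rfl
  · exact Or.inl rfl
  · refine Or.inr ?_
    rw [← map_add, show (-1 - B' + B') = (-1 : ZMod (2 * q)) by ring, map_neg, map_one]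

omit [Fintype I] [DecidableEq I] [NeZero (2 * q)] in
lemma cast_blk (i : I) (x : (Fin R → ZMod (2 * q)) × Fin W) :
    ZMod.castHom (dvd_mul_left q 2) (ZMod q) (blk q W v w i x) =
      lin q (v i) x.1 + ((w i * (x.2 : ℕ) / W : ℕ) : ZMod q) := by
  rw [blk, map_add, cast_lin, map_natCast]

omit [NeZero (2 * q)] in
lemma lin_comb (u u' : Fin R → ℤ) (s : ℤ) (c : Fin R → ZMod (2 * q)) :
    lin q (fun l => u l + s * u' l) c = lin q u c + (s : ZMod q) * lin q u' c := by
  simp [lin, mul_sum, ← sum_add_distrib]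
  exact sum_congr rfl fun l _ => by ring

omit [DecidableEq I] in
/-- Two classes of one group seldom share a coordinate. -/
lemma coinc_single (hG : Generic q v) {j k : I} (hjk : j ≠ k) (t : Fin W) :
    #{c | Coinc (blk q W v w j (c, t)) (blk q W v w k (c, t))} * q ≤ 2 * (2 * q) ^ R := by
  set α := ((w j * (t : ℕ) / W : ℕ) : ZMod q)
  set β := ((w k * (t : ℕ) / W : ℕ) : ZMod q)
  have h1 := one_form (hG.comb j k hjk (-1) (Or.inr rfl)) (β - α)
  have h2 := one_form (hG.comb j k hjk 1 (Or.inl rfl)) (-1 - β - α)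
  calc #{c | Coinc (blk q W v w j (c, t)) (blk q W v w k (c, t))} * q
      ≤ (#{c | lin q (fun l => v j l + -1 * v k l) c = β - α} +
          #{c | lin q (fun l => v j l + 1 * v k l) c = -1 - β - α}) * q := by
        refine Nat.mul_le_mul_right _ (le_trans (card_le_card fun c hc => ?_) (card_union_le _ _))
        simp only [mem_filter, mem_univ, true_and, mem_union, lin_comb] at hc ⊢
        rcases coinc_cast hc with h | h <;> rw [cast_blk, cast_blk] at h
        · left; push_cast; linear_combination h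
        · right; push_cast; linear_combination h
    _ = 2 * (2 * q) ^ R := by rw [add_mul, h1, h2, ← two_mul]

omit [DecidableEq I] in
/-- Given one group, the others in its fibre seldom share a coordinate with it. -/
lemma coinc_cross (hG : Generic q v) {i k : I} (hk : i ≠ k) (t : Fin W)
    (B B' : ZMod (2 * q)) :
    #{c | blk q W v w i (c, t) = B ∧ Coinc B' (blk q W v w k (c, t))} * (q * q) ≤
      2 * (2 * q) ^ R := by
  set α := ((w i * (t : ℕ) / W : ℕ) : ZMod q)
  set β := ((w k * (t : ℕ) / W : ℕ) : ZMod q)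
  set b := ZMod.castHom (dvd_mul_left q 2) (ZMod q) B
  set b' := ZMod.castHom (dvd_mul_left q 2) (ZMod q) B'
  have h1 := two_forms (hG.minor i k hk) (b - α) (b' - β)
  have h2 := two_forms (hG.minor i k hk) (b - α) (-1 - b' - β)
  calc #{c | blk q W v w i (c, t) = B ∧ Coinc B' (blk q W v w k (c, t))} * (q * q)
      ≤ (#{c | lin q (v i) c = b - α ∧ lin q (v k) c = b' - β} +
          #{c | lin q (v i) c = b - α ∧ lin q (v k) c = -1 - b' - β}) * (q * q) := by
        refine Nat.mul_le_mul_right _ (le_trans (card_le_card fun c hc => ?_) (card_union_le _ _))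
        simp only [mem_filter, mem_univ, true_and, mem_union] at hc ⊢
        have e := congrArg (ZMod.castHom (dvd_mul_left q 2) (ZMod q)) hc.1
        rw [cast_blk] at e
        rcases coinc_cast hc.2 with h | h <;> rw [cast_blk] at h
        · exact Or.inl ⟨by linear_combination e, by linear_combination -h⟩
        · exact Or.inr ⟨by linear_combination e, by linear_combination h⟩
    _ = 2 * (2 * q) ^ R := by rw [add_mul, h1, h2, ← two_mul]

variable {p : I → ℝ}

omit [Fact q.Prime] in
lemma av_ind (hp : 2 * ∑ i, p i = 1) (hq : 0 < q) (x : (Fin R → ZMod (2 * q)) × Fin W)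
    (hgood : ∀ j k, j ≠ k → ¬ Coinc (blk q W v w j x) (blk q W v w k x)) :
    av p (fun f => ind hq W v w f x) = ∏ j, p j :=
  av_own hp hq (fun j => blk q W v w j x)
    (fun j k h => by_contra fun hne => hgood j k hne (coinc_of_rep hq h)) id

omit [Fact q.Prime] in
lemma av_pair (hp : 2 * ∑ i, p i = 1) (hq : 0 < q) {i : I}
    (x y : (Fin R → ZMod (2 * q)) × Fin W)
    (hxy : blk q W v w i x = blk q W v w i y)
    (hx : ∀ j k, j ≠ k → ¬ Coinc (blk q W v w j x) (blk q W v w k x))
    (hy : ∀ j k, j ≠ k → ¬ Coinc (blk q W v w j y) (blk q W v w k y))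
    (hc : ∀ j k, j ≠ i → k ≠ i → ¬ Coinc (blk q W v w j x) (blk q W v w k y)) :
    av p (fun f => ind hq W v w f x * ind hq W v w f y) =
      p i * (∏ j ∈ univ.erase i, p j) * ∏ j ∈ univ.erase i, p j := by
  set B : I ⊕ {j // j ≠ i} → ZMod (2 * q) :=
    Sum.elim (fun j => blk q W v w j x) (fun j => blk q W v w j.1 y)
  have hsub : ∀ g : I → ℝ, ∏ j : {j // j ≠ i}, g j = ∏ j ∈ univ.erase i, g j := fun g =>
    (prod_subtype _ (by simp) g).symm
  have e : ∀ f : Fin q → I × Bool, ind hq W v w f x * ind hq W v w f y =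
      ∏ m, own hq f (B m) (Sum.elim id Subtype.val m) := by
    intro f
    simp only [Fintype.prod_sum_type, B, Sum.elim_inl, Sum.elim_inr, id, ind]
    rw [hsub (fun j => own hq f (blk q W v w j y) j),
      ← mul_prod_erase univ (fun j => own hq f (blk q W v w j y) j) (mem_univ i),
      ← mul_prod_erase univ (fun j => own hq f (blk q W v w j x) j) (mem_univ i), hxy]
    unfold own
    split_ifs <;> ring
  simp only [e]
  rw [av_own hp hq B ?_ _]
  · simp only [Fintype.prod_sum_type, Sum.elim_inl, Sum.elim_inr, id]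
    rw [hsub p, ← mul_prod_erase univ p (mem_univ i)]
  · rintro (j | ⟨j, hj⟩) (k | ⟨k, hk⟩) h <;> have h' := coinc_of_rep hq h
    · exact congrArg _ (by_contra fun hne => hx j k hne h')
    · by_cases hji : j = i
      · subst hji
        exact absurd (show Coinc (blk q W v w j y) (blk q W v w k y) by rwa [← hxy]) (hy j k (Ne.symm hk))
      · exact absurd h' (hc j k hji hk)
    · have h'' := coinc_of_rep hq h.symm
      by_cases hki : k = i
      · subst hki
        exact absurd (show Coinc (blk q W v w k y) (blk q W v w j y) by rwa [← hxy]) (hy k j (Ne.symm hj))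
      · exact absurd h'' (hc k j hki hj)
    · exact congrArg _ (Subtype.ext (by_contra fun hne => hy j k hne h'))

/-- The groups which can start at residue `l` of class `i`. -/
def Slots (q R W : ℕ) (d l : ℕ) [NeZero (2 * q)] : Finset ((Fin R → ZMod (2 * q)) × Fin W) :=
  univ.filter fun x => (x.2 : ℕ) % d = l

omit [Fintype I] [Fact q.Prime] [NeZero (2 * q)] in
lemma own_nonneg (hq : 0 < q) (f : Fin q → I × Bool) (B : ZMod (2 * q)) (i : I) :
    0 ≤ own hq f B i ∧ own hq f B i ≤ 1 := by
  unfold own; split_ifs <;> norm_num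

omit [Fact q.Prime] [NeZero (2 * q)] in
lemma ind_range (hq : 0 < q) (f : Fin q → I × Bool) (x : (Fin R → ZMod (2 * q)) × Fin W) :
    0 ≤ ind hq W v w f x ∧ ind hq W v w f x ≤ 1 :=
  ⟨prod_nonneg fun j _ => (own_nonneg hq f _ j).1,
    prod_le_one (fun j _ => (own_nonneg hq f _ j).1) fun j _ => (own_nonneg hq f _ j).2⟩

omit [Fact q.Prime] [NeZero (2 * q)] in
lemma av_range (hp0 : ∀ i, 0 ≤ p i) (hp : 2 * ∑ i, p i = 1) {F : (Fin q → I × Bool) → ℝ}
    (h : ∀ f, 0 ≤ F f ∧ F f ≤ 1) : 0 ≤ av p F ∧ av p F ≤ 1 :=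
  ⟨sum_nonneg fun f _ => mul_nonneg (wt_nonneg hp0 f) (h f).1,
    (av_mono hp0 fun f => (h f).2).trans_eq (av_one hp)⟩

lemma moment (hG : Generic q v) (hR : 2 ≤ R) (hp0 : ∀ i, 0 ≤ p i) (hp : 2 * ∑ i, p i = 1)
    (hq : 0 < q) (i : I) (hw : 0 < w i) (hdvd : w i ∣ W) {l : ℕ} (hl : l < W / w i) :
    ∑ B : ZMod (2 * q), av p (fun f =>
      (∑ x ∈ Slots q R W (W / w i) l with blk q W v w i x = B, ind hq W v w f x -
        (w i * (2 * q : ℝ) ^ (R - 1) * ∏ j ∈ univ.erase i, p j) * own hq f B i) ^ 2) ≤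
      24 * (Fintype.card I : ℝ) ^ 2 * (w i * (2 * q : ℝ) ^ (R - 1)) ^ 2 := by
  obtain ⟨R', rfl⟩ : ∃ R', R = R' + 2 := ⟨R - 2, by omega⟩
  rw [show R' + 2 - 1 = R' + 1 from rfl]
  set S := Slots q (R' + 2) W (W / w i) l
  set n : ℕ := Fintype.card I
  set K : ℕ := w i * (2 * q) ^ (R' + 1) with hK
  set fib := fun B => S.filter fun x => blk q W v w i x = B with hfibdef
  set rest := ∏ j ∈ univ.erase i, p j with hrest
  have hT : #{t : Fin W | (t : ℕ) % (W / w i) = l} = w i := card_residue hw hdvd hl
  have perSlot : ∀ (P : ((Fin (R' + 2) → ZMod (2 * q)) × Fin W) → Prop) {_ : DecidablePred P}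
      (b : ℕ),
      (∀ t, #{c | P (c, t)} ≤ b) → #(S.filter P) ≤ w i * b := by
    intro P _ b hb
    have : S.filter P = univ.filter fun x => (x.2 : ℕ) % (W / w i) = l ∧ P x := by
      simp only [S, Slots, filter_filter]
    rw [this, split_card]
    calc ∑ t : Fin W, #{c : Fin (R' + 2) → ZMod (2 * q) | (t : ℕ) % (W / w i) = l ∧ P (c, t)}
        ≤ ∑ t : Fin W, if (t : ℕ) % (W / w i) = l then b else 0 := sum_le_sum fun t _ => by
          by_cases ht : (t : ℕ) % (W / w i) = l <;> simp [ht, hb t]
      _ = w i * b := by rw [← sum_filter, sum_const, hT, smul_eq_mul]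
  -- every fibre has `K` elements
  have hfib : ∀ B, #(fib B) = K := by
    intro B
    have e : fib B = univ.filter fun x => (x.2 : ℕ) % (W / w i) = l ∧ blk q W v w i x = B := by
      simp only [hfibdef, S, Slots, filter_filter]
    rw [e, split_card]
    calc ∑ t : Fin W, #{c : Fin (R' + 2) → ZMod (2 * q) |
          (t : ℕ) % (W / w i) = l ∧ blk q W v w i (c, t) = B}
        = ∑ t : Fin W, if (t : ℕ) % (W / w i) = l then (2 * q) ^ (R' + 1) else 0 := by
          refine sum_congr rfl fun t _ => ?_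
          by_cases ht : (t : ℕ) % (W / w i) = l
          · simp only [ht, true_and, if_true]
            refine Nat.eq_of_mul_eq_mul_right (show 0 < 2 * q by omega) ?_
            rw [← pow_succ]
            convert primitive_form (hG.primitive i)
              (B - ((w i * (t : ℕ) / W : ℕ) : ZMod (2 * q))) using 3
            ext c
            simp [blk, eq_sub_iff_add_eq]
          · simp [ht]
      _ = K := by rw [← sum_filter, sum_const, hT, smul_eq_mul]
  have hS : #S = 2 * q * K := by
    rw [card_eq_sum_card_fiberwise (f := fun x => blk q W v w i x)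
      (t := univ) fun x _ => mem_univ _, sum_congr rfl fun B _ => hfib B, sum_const, card_univ,
      ZMod.card, smul_eq_mul]
  set bad := fun x => ∃ j k, j ≠ k ∧ Coinc (blk q W v w j x) (blk q W v w k x) with hbad
  set cross := fun x y => ∃ j k, j ≠ i ∧ k ≠ i ∧ Coinc (blk q W v w j x) (blk q W v w k y)
    with hcross
  have hbadcard : #(S.filter bad) ≤ 4 * n ^ 2 * K := by
    refine (perSlot bad (n * (n * (4 * (2 * q) ^ (R' + 1)))) fun t => ?_).trans
      (le_of_eq (show w i * (n * (n * (4 * (2 * q) ^ (R' + 1)))) =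
        4 * n ^ 2 * (w i * (2 * q) ^ (R' + 1)) by ring))
    calc #{c | bad (c, t)}
        ≤ #(univ.biUnion fun j => univ.biUnion fun k =>
            univ.filter fun c : Fin (R' + 2) → ZMod (2 * q) =>
              j ≠ k ∧ Coinc (blk q W v w j (c, t)) (blk q W v w k (c, t))) :=
          card_le_card fun c hc => by simpa [hbad] using hc
      _ ≤ n * (n * (4 * (2 * q) ^ (R' + 1))) :=
          card_biUnion_le_card_mul _ _ _ fun j _ => card_biUnion_le_card_mul _ _ _ fun k _ => by
            by_cases hjk : j = k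
            · simp [hjk]
            · simp only [ne_eq, hjk, not_false_eq_true, true_and]
              refine Nat.le_of_mul_le_mul_right ((coinc_single hG hjk t).trans (le_of_eq ?_)) hq
              ring
  have hcrosscard : ∀ x, #((fib (blk q W v w i x)).filter (cross x)) ≤
      w i * (n * (n * (8 * (2 * q) ^ R'))) := by
    intro x
    rw [hfibdef, filter_filter]
    refine perSlot _ _ fun t => ?_
    calc #{c | blk q W v w i (c, t) = blk q W v w i x ∧ cross x (c, t)}
        ≤ #(univ.biUnion fun j => univ.biUnion fun k =>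
            univ.filter fun c : Fin (R' + 2) → ZMod (2 * q) =>
              k ≠ i ∧ blk q W v w i (c, t) = blk q W v w i x ∧
                Coinc (blk q W v w j x) (blk q W v w k (c, t))) :=
          card_le_card fun c hc => by
            simp only [hcross, mem_filter, mem_univ, true_and] at hc
            obtain ⟨hb, j, k, -, hk, h⟩ := hc
            simp only [mem_biUnion, mem_filter, mem_univ, true_and]
            exact ⟨j, k, hk, hb, h⟩
      _ ≤ n * (n * (8 * (2 * q) ^ R')) :=
          card_biUnion_le_card_mul _ _ _ fun j _ => card_biUnion_le_card_mul _ _ _ fun k _ => by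
            by_cases hk : k = i
            · simp [hk]
            · simp only [ne_eq, hk, not_false_eq_true, true_and]
              refine Nat.le_of_mul_le_mul_right
                ((coinc_cross hG (Ne.symm hk) t _ _).trans (le_of_eq ?_)) (Nat.mul_pos hq hq)
              ring
  have hrest0 : 0 ≤ rest := prod_nonneg fun j _ => hp0 j
  have hp1 : ∀ j, p j ≤ 1 := fun j => by
    have := single_le_sum (f := p) (fun k _ => hp0 k) (mem_univ j)
    linarith
  have hrest1 : rest ≤ 1 := prod_le_one (fun j _ => hp0 j) fun j _ => hp1 j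
  set μ := (K : ℝ) * rest with hμ
  have eμ : (w i : ℝ) * (2 * q : ℝ) ^ (R' + 1) = (K : ℝ) := by rw [hK]; push_cast; ring
  rw [eμ, ← hμ]
  let A : ((Fin (R' + 2) → ZMod (2 * q)) × Fin W) → ((Fin (R' + 2) → ZMod (2 * q)) × Fin W) → ℝ :=
    fun x y => av p fun f => ind hq W v w f x * ind hq W v w f y
  -- expand the square
  have step : ∑ B : ZMod (2 * q), av p (fun f => (∑ x ∈ fib B, ind hq W v w f x -
        μ * own hq f B i) ^ 2) =
      ∑ x ∈ S, ∑ y ∈ fib (blk q W v w i x), A x y -
        2 * μ * ∑ x ∈ S, av p (fun f => ind hq W v w f x) + μ ^ 2 * (2 * q * p i) := by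
    have e : ∀ f B, (∑ x ∈ fib B, ind hq W v w f x - μ * own hq f B i) ^ 2 =
        ∑ x ∈ fib B, ∑ y ∈ fib B, ind hq W v w f x * ind hq W v w f y +
          (-(2 * μ) * ∑ x ∈ fib B, ind hq W v w f x + μ ^ 2 * own hq f B i) := by
      intro f B
      have h1 : (∑ x ∈ fib B, ind hq W v w f x) * own hq f B i =
          ∑ x ∈ fib B, ind hq W v w f x := by
        rw [sum_mul]
        refine sum_congr rfl fun x hx => ?_
        rw [ind, ← mul_prod_erase univ _ (mem_univ i), (mem_filter.1 hx).2]
        unfold own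
        split_ifs <;> ring
      have h2 : own hq f B i * own hq f B i = own hq f B i := by
        unfold own
        split_ifs <;> ring
      rw [← sum_mul_sum]
      linear_combination (-2 * μ) * h1 + μ ^ 2 * h2
    have ho : ∀ B, av p (fun f => own hq f B i) = p i := fun B => by
      simpa using av_own (M := Unit) hp hq (fun _ => B) (fun _ _ _ => rfl) (fun _ => i)
    have hf : ∀ g : ((Fin (R' + 2) → ZMod (2 * q)) × Fin W) → ℝ,
        ∑ B, ∑ x ∈ fib B, g x = ∑ x ∈ S, g x := fun g =>
      sum_fiberwise S (fun x => blk q W v w i x) g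
    calc ∑ B, av p (fun f => (∑ x ∈ fib B, ind hq W v w f x - μ * own hq f B i) ^ 2)
        = ∑ B, (∑ x ∈ fib B, ∑ y ∈ fib B, A x y +
            (-(2 * μ) * ∑ x ∈ fib B, av p (fun f => ind hq W v w f x) + μ ^ 2 * p i)) := by
          simp only [e, av_add, av_sum, av_mul, ho, A]
      _ = _ := by
          rw [sum_add_distrib, sum_add_distrib, ← mul_sum, hf, sum_const, card_univ, ZMod.card,
            nsmul_eq_mul, ← hf (fun x => ∑ y ∈ fib (blk q W v w i x), A x y)]
          rw [sum_congr rfl fun B _ => sum_congr rfl fun x (hx : x ∈ fib B) =>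
            show ∑ y ∈ fib B, A x y = ∑ y ∈ fib (blk q W v w i x), A x y by
              rw [(mem_filter.1 hx).2]]
          push_cast
          ring
  show ∑ B : ZMod (2 * q), av p (fun f => (∑ x ∈ fib B, ind hq W v w f x -
        μ * own hq f B i) ^ 2) ≤ _
  rw [step]
  have hA : ∀ x y, y ∈ fib (blk q W v w i x) → A x y ≤ p i * rest * rest +
      ((if bad x then 1 else 0) + (if bad y then 1 else 0) + (if cross x y then 1 else 0)) := by
    intro x y hy
    have hA1 : A x y ≤ 1 := (av_range hp0 hp fun f =>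
      ⟨mul_nonneg (ind_range hq f x).1 (ind_range hq f y).1,
        mul_le_one₀ (ind_range hq f x).2 (ind_range hq f y).1 (ind_range hq f y).2⟩).2
    have hg : 0 ≤ p i * rest * rest := mul_nonneg (mul_nonneg (hp0 i) hrest0) hrest0
    by_cases h1 : bad x
    · rw [if_pos h1]; split_ifs <;> linarith
    by_cases h2 : bad y
    · rw [if_pos h2]; split_ifs <;> linarith
    by_cases h3 : cross x y
    · rw [if_pos h3]; split_ifs <;> linarith
    rw [if_neg h1, if_neg h2, if_neg h3]
    simp only [hbad, hcross, not_exists, not_and] at h1 h2 h3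
    simp only [A, av_pair hp hq x y (mem_filter.1 hy).2.symm h1 h2 h3]
    simp [hrest]
  have hone : ∀ x, p i * rest - (if bad x then 1 else 0) ≤ av p (fun f => ind hq W v w f x) := by
    intro x
    have h0 : 0 ≤ av p (fun f => ind hq W v w f x) := (av_range hp0 hp fun f => ind_range hq f x).1
    by_cases h1 : bad x
    · rw [if_pos h1]; nlinarith [mul_le_one₀ (hp1 i) hrest0 hrest1]
    · rw [if_neg h1, sub_zero]
      simp only [hbad, not_exists, not_and] at h1
      rw [av_ind hp hq x h1, hrest, mul_prod_erase univ p (mem_univ i)]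
  have hb : (#(S.filter bad) : ℝ) ≤ 4 * (n : ℝ) ^ 2 * K := by exact_mod_cast hbadcard
  have t1 : ∑ x ∈ S, ∑ y ∈ fib (blk q W v w i x), (if bad x then (1 : ℝ) else 0) ≤
      4 * (n : ℝ) ^ 2 * K * K := by
    simp only [sum_const, hfib, nsmul_eq_mul, ← mul_sum]
    rw [sum_boole]
    nlinarith [(Nat.cast_nonneg K : (0 : ℝ) ≤ K)]
  have t2 : ∑ x ∈ S, ∑ y ∈ fib (blk q W v w i x), (if bad y then (1 : ℝ) else 0) ≤
      4 * (n : ℝ) ^ 2 * K * K := by
    rw [sum_comm' (t' := S) (s' := fun y => fib (blk q W v w i y)) (fun x y => by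
      simp only [hfibdef, mem_filter]; constructor <;> rintro ⟨h1, h2⟩
      · exact ⟨⟨h1, h2.2.symm⟩, h2.1⟩
      · exact ⟨h1.1, h2, h1.2.symm⟩)]
    exact t1
  have t3 : ∑ x ∈ S, ∑ y ∈ fib (blk q W v w i x), (if cross x y then (1 : ℝ) else 0) ≤
      8 * (n : ℝ) ^ 2 * K * K := by
    have : ∑ x ∈ S, #((fib (blk q W v w i x)).filter (cross x)) ≤ 8 * n ^ 2 * K * K := by
      refine (sum_le_sum fun x _ => hcrosscard x).trans (le_of_eq ?_)
      rw [sum_const, hS, smul_eq_mul, hK]
      ring
    rw [sum_congr rfl fun x _ => sum_boole (p := cross x) (fib (blk q W v w i x))]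
    exact_mod_cast this
  have sA : ∑ x ∈ S, ∑ y ∈ fib (blk q W v w i x), A x y ≤
      2 * q * K * K * (p i * rest * rest) + 16 * (n : ℝ) ^ 2 * K * K := by
    refine (sum_le_sum fun x _ => sum_le_sum fun y hy => hA x y hy).trans ?_
    simp only [sum_add_distrib]
    have : ∑ x ∈ S, ∑ y ∈ fib (blk q W v w i x), (p i * rest * rest) =
        2 * q * K * K * (p i * rest * rest) := by
      simp only [sum_const, hfib, nsmul_eq_mul]
      rw [hS]
      push_cast
      ring
    linarith
  have sI : 2 * q * K * (p i * rest) - 4 * (n : ℝ) ^ 2 * K ≤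
      ∑ x ∈ S, av p (fun f => ind hq W v w f x) := by
    refine le_trans ?_ (sum_le_sum fun x _ => hone x)
    rw [sum_sub_distrib, sum_const, hS, nsmul_eq_mul, sum_boole]
    push_cast
    linarith
  have hμ0 : 0 ≤ μ := mul_nonneg (Nat.cast_nonneg K) hrest0
  have hμ1 : μ ≤ K := by rw [hμ]; exact mul_le_of_le_one_right (Nat.cast_nonneg K) hrest1
  have e3 : 2 * μ * (2 * q * K * (p i * rest)) =
      2 * q * K * K * (p i * rest * rest) + μ ^ 2 * (2 * q * p i) := by rw [hμ]; ring
  nlinarith [mul_le_mul_of_nonneg_left sI (by linarith : 0 ≤ 2 * μ),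
    mul_le_mul_of_nonneg_left hμ1 (by positivity : (0 : ℝ) ≤ 8 * (n : ℝ) ^ 2 * K)]

end Vale.Agent.P110.Full
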