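import Vale.Agent.P110.Full.OwnerCount

/-!
Antisymmetric random owners of blocks and the probability of prescribed owners.
-/

noncomputable section

namespace Vale.Agent.P110.Full

open Finset

/-- The coordinate carrying the owner of a block. -/
def rep {q : ℕ} (hq : 0 < q) (B : ZMod (2 * q)) : Fin q :=
  if h : B.val < q then ⟨B.val, h⟩ else ⟨(2 * q - 1 - B.val) % q, Nat.mod_lt _ hq⟩

/-- Equal or mirrored blocks. -/
def Coinc {q : ℕ} (B B' : ZMod (2 * q)) : Prop := B = B' ∨ B = -1 - B'

/-- The owners given by the values on one half. -/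
def mk {I : Type} {q : ℕ} (hq : 0 < q) (f : Fin q → I × Bool) (B : ZMod (2 * q)) : I × Bool :=
  ((f (rep hq B)).1, if B.val < q then (f (rep hq B)).2 else !(f (rep hq B)).2)

/-- The product weight. -/
def wt {I : Type} {q : ℕ} (p : I → ℝ) (f : Fin q → I × Bool) : ℝ := ∏ k, p (f k).1

/-- The mean over all choices of owners. -/
def av {I : Type} [Fintype I] [DecidableEq I] {q : ℕ} (p : I → ℝ)
    (F : (Fin q → I × Bool) → ℝ) : ℝ :=
  ∑ f, wt p f * F f

/-- One if the block has the given owner. -/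
def own {I : Type} [DecidableEq I] {q : ℕ} (hq : 0 < q) (f : Fin q → I × Bool)
    (B : ZMod (2 * q)) (i : I) : ℝ :=
  if mk hq f B = (i, true) then 1 else 0

lemma val_mirror {q : ℕ} [NeZero (2 * q)] (B : ZMod (2 * q)) :
    (-1 - B).val = 2 * q - 1 - B.val := by
  have hlt := B.val_lt
  have h : (-1 - B) = ((2 * q - 1 - B.val : ℕ) : ZMod (2 * q)) := by
    rw [Nat.cast_sub (by omega), Nat.cast_sub (by omega), ZMod.natCast_self,
      ZMod.natCast_zmod_val]
    simp
  rw [h, ZMod.val_natCast_of_lt (by omega)]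

lemma rep_val {q : ℕ} [NeZero (2 * q)] (hq : 0 < q) (B : ZMod (2 * q)) :
    (rep hq B : ℕ) = if B.val < q then B.val else 2 * q - 1 - B.val := by
  have hlt := B.val_lt
  unfold rep
  split_ifs with h
  · rfl
  · exact Nat.mod_eq_of_lt (by omega)

lemma coinc_of_rep {q : ℕ} [NeZero (2 * q)] (hq : 0 < q) {B B' : ZMod (2 * q)}
    (h : rep hq B = rep hq B') : Coinc B B' := by
  have hB := B.val_lt
  have hB' := B'.val_lt
  have e := congrArg Fin.val h
  rw [rep_val, rep_val] at e
  have m := val_mirror B'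
  split_ifs at e
  · exact Or.inl (ZMod.val_injective _ e)
  · exact Or.inr (ZMod.val_injective _ (by rw [m]; omega))
  · exact Or.inr (ZMod.val_injective _ (by rw [m]; omega))
  · exact Or.inl (ZMod.val_injective _ (by omega))

lemma anti_mk {I : Type} {q : ℕ} [NeZero (2 * q)] (hq : 0 < q) (f : Fin q → I × Bool) :
    AntiOwner q (mk hq f) := by
  intro B
  have hB := B.val_lt
  have m := val_mirror B
  have e : rep hq (-1 - B) = rep hq B := by
    apply Fin.ext
    rw [rep_val, rep_val, m]
    split_ifs <;> omega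
  unfold mk
  rw [e, m]
  by_cases h : B.val < q
  · rw [if_pos h, if_neg (show ¬ 2 * q - 1 - B.val < q by omega)]
  · rw [if_neg h, if_pos (show 2 * q - 1 - B.val < q by omega)]
    simp

variable {I : Type} [Fintype I] [DecidableEq I] {q : ℕ} {p : I → ℝ}

omit [DecidableEq I] in
lemma sum_weights (hp : 2 * ∑ i, p i = 1) : ∑ a : I × Bool, p a.1 = 1 := by
  rw [Fintype.sum_prod_type, ← hp, mul_sum]
  exact sum_congr rfl fun i _ => by simp [two_mul]

/-- Prescribed values at distinct coordinates are independent. -/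
lemma cylinder (hp : 2 * ∑ i, p i = 1) {M : Type*} [Fintype M] (r : M → Fin q)
    (hr : Function.Injective r) (g : M → I × Bool) :
    av p (fun f => ∏ m, if f (r m) = g m then 1 else 0) = ∏ m, p (g m).1 := by
  classical
  set h : Fin q → I × Bool → ℝ := fun k a => ∏ m : {m // r m = k}, if a = g m then 1 else 0
  have e1 : ∀ f : Fin q → I × Bool,
      (∏ m, if f (r m) = g m then (1 : ℝ) else 0) = ∏ k, h k (f k) := by
    intro f
    rw [← Fintype.prod_fiberwise r (fun m => if f (r m) = g m then (1 : ℝ) else 0)]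
    exact prod_congr rfl fun k _ => prod_congr rfl fun m _ => by rw [m.2]
  simp only [av, wt, e1, ← prod_mul_distrib]
  rw [← Fintype.prod_sum (fun k a => p a.1 * h k a),
    ← Fintype.prod_fiberwise r (fun m => p (g m).1)]
  refine prod_congr rfl fun k _ => ?_
  have : Subsingleton {m // r m = k} := ⟨fun a b => Subtype.ext (hr (a.2.trans b.2.symm))⟩
  by_cases hk : ∃ m, r m = k
  · obtain ⟨m, hm⟩ := hk
    have hu : (univ : Finset {m // r m = k}) = {⟨m, hm⟩} := by
      ext a; simp [Subsingleton.elim a ⟨m, hm⟩]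
    simp [h, hu]
  · have : IsEmpty {m // r m = k} := ⟨fun a => hk ⟨a.1, a.2⟩⟩
    simpa [h] using sum_weights hp

lemma av_own (hp : 2 * ∑ i, p i = 1) (hq : 0 < q) {M : Type*} [Fintype M]
    (B : M → ZMod (2 * q)) (hB : Function.Injective fun m => rep hq (B m)) (g : M → I) :
    av p (fun f => ∏ m, own hq f (B m) (g m)) = ∏ m, p (g m) := by
  rw [← cylinder hp _ hB (fun m => (g m, decide ((B m).val < q)))]
  refine congrArg (av p) (funext fun f => prod_congr rfl fun m _ => if_congr ?_ rfl rfl)
  simp only [mk, Prod.ext_iff]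
  by_cases h : (B m).val < q <;> simp [h]

lemma av_one (hp : 2 * ∑ i, p i = 1) : av (q := q) p (fun _ => 1) = 1 := by
  have := cylinder (q := q) hp (M := Empty) Empty.elim (fun a => a.elim) Empty.elim
  simpa using this

lemma av_add (F G : (Fin q → I × Bool) → ℝ) :
    av p (fun f => F f + G f) = av p F + av p G := by
  simp [av, mul_add, sum_add_distrib]

lemma av_mul (a : ℝ) (F : (Fin q → I × Bool) → ℝ) :
    av p (fun f => a * F f) = a * av p F := by
  simp [av, mul_sum, mul_left_comm]

lemma av_sum {α : Type*} (s : Finset α) (F : α → (Fin q → I × Bool) → ℝ) :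
    av p (fun f => ∑ x ∈ s, F x f) = ∑ x ∈ s, av p (F x) := by
  simp only [av, mul_sum]
  exact sum_comm

omit [Fintype I] [DecidableEq I] in
lemma wt_nonneg (hp : ∀ i, 0 ≤ p i) (f : Fin q → I × Bool) : 0 ≤ wt p f :=
  prod_nonneg fun _ _ => hp _

lemma av_mono (hp : ∀ i, 0 ≤ p i) {F G : (Fin q → I × Bool) → ℝ} (h : ∀ f, F f ≤ G f) :
    av p F ≤ av p G :=
  sum_le_sum fun f _ => mul_le_mul_of_nonneg_left (h f) (wt_nonneg hp f)

/-- Some choice does no worse than the mean. -/
lemma exists_le_av (hp0 : ∀ i, 0 ≤ p i) (hp : 2 * ∑ i, p i = 1) {F : (Fin q → I × Bool) → ℝ}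
    {b : ℝ} (h : av p F < b) : ∃ f, F f < b := by
  by_contra hn
  push Not at hn
  have := av_mono (q := q) hp0 (F := fun _ => b * 1) (G := F) (fun f => by simpa using hn f)
  rw [av_mul, av_one hp, mul_one] at this
  linarith

/-- A mean square bounds the mean absolute value. -/
lemma av_abs (hp0 : ∀ i, 0 ≤ p i) (hp : 2 * ∑ i, p i = 1) {α : Type*} (s : Finset α)
    (X : α → (Fin q → I × Bool) → ℝ) {lam b : ℝ} (hlam : 0 < lam)
    (h : ∑ x ∈ s, av p (fun f => X x f ^ 2) ≤ b) :
    av p (fun f => ∑ x ∈ s, |X x f|) ≤ b / (2 * lam) + lam / 2 * #s := by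
  calc av p (fun f => ∑ x ∈ s, |X x f|)
      ≤ av p (fun f => ∑ x ∈ s, ((1 / (2 * lam)) * X x f ^ 2 + lam / 2 * 1)) := by
        refine av_mono hp0 fun f => sum_le_sum fun x _ => ?_
        have e : (1 / (2 * lam)) * X x f ^ 2 + lam / 2 * 1 - |X x f| =
            (|X x f| - lam) ^ 2 / (2 * lam) := by
          rw [← sq_abs (X x f)]
          field_simp
          ring
        nlinarith [div_nonneg (sq_nonneg (|X x f| - lam)) (by positivity : (0 : ℝ) ≤ 2 * lam)]
    _ = (1 / (2 * lam)) * ∑ x ∈ s, av p (fun f => X x f ^ 2) + lam / 2 * #s := by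
        simp only [av_sum, av_add, av_mul, av_one hp, sum_add_distrib, ← mul_sum, sum_const,
          nsmul_eq_mul]
        ring
    _ ≤ b / (2 * lam) + lam / 2 * #s := by
        rw [div_eq_mul_one_div b (2 * lam), mul_comm b]
        gcongr

end Vale.Agent.P110.Full
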