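import Vale.Agent.P110.Full.Osc

/-!
A phase profile whose oscillatory integral has bounded, explicit size: stationary phase.
-/

noncomputable section

namespace Vale.Agent.P110.Full

open MeasureTheory

/-- The primitive of a continuous density. -/
def prim (g : ℝ → ℝ) (x : ℝ) : ℝ := ∫ y in (0 : ℝ)..x, g y

theorem hasDerivAt_prim {g : ℝ → ℝ} (hg : Continuous g) (x : ℝ) :
    HasDerivAt (prim g) (g x) x :=
  (hg.integral_hasStrictDerivAt 0 x).hasDerivAt

theorem continuous_prim {g : ℝ → ℝ} (hg : Continuous g) : Continuous (prim g) :=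
  continuous_iff_continuousAt.2 fun x => (hasDerivAt_prim hg x).continuousAt

theorem prim_sub_ge {g : ℝ → ℝ} (hg : Continuous g) {lam : ℝ} (h : ∀ x, lam ≤ g x) {u v : ℝ}
    (huv : u ≤ v) : lam * (v - u) ≤ prim g v - prim g u := by
  have e : prim g v - prim g u = ∫ y in u..v, g y :=
    intervalIntegral.integral_interval_sub_left (hg.intervalIntegrable _ _)
      (hg.intervalIntegrable _ _)
  rw [e]
  refine le_trans (le_of_eq ?_) (intervalIntegral.integral_mono huv
    (continuous_const.intervalIntegrable (μ := volume) u v) (hg.intervalIntegrable u v) fun x => h x)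
  rw [intervalIntegral.integral_const, smul_eq_mul]
  ring

/-- The stationary phase formula at an interior point, with explicit error. -/
theorem stationary_le {g : ℝ → ℝ} (hg : Continuous g) {lam : ℝ} (hlam : 0 < lam)
    (hge : ∀ x, lam ≤ g x) {ζ : ℂ} (hζ : ∀ R : ℝ, 0 < R → ‖fres R - ζ‖ ≤ 2 / R)
    {R M x₀ ω : ℝ} (hR : 0 < R) (hM : 0 < M) (h0 : 0 ≤ x₀ - R / Real.sqrt M)
    (h1 : x₀ + R / Real.sqrt M ≤ 1)
    (hω : ∀ x, |x - x₀| ≤ R / Real.sqrt M → |g x - g x₀| ≤ ω) :
    ‖(Real.sqrt M : ℂ) * (∫ x in (0 : ℝ)..1,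
        ch (M * (prim (prim g) x - prim g x₀ * x))) -
      ((1 / Real.sqrt (g x₀) : ℝ) : ℂ) * ζ * ch (M * (prim (prim g) x₀ - prim g x₀ * x₀))‖ ≤
      4 / (lam * R) + 4 * Real.pi * ω * R ^ 3 := by
  set s := Real.sqrt M with hs
  have hs0 : 0 < s := Real.sqrt_pos.2 hM
  have hssq : s * s = M := Real.mul_self_sqrt hM.le
  set κ := prim g x₀ with hκ
  set ψ : ℝ → ℝ := fun x => M * (prim (prim g) x - κ * x) with hψ
  set g₀ := g x₀ with hg₀
  have hg0 : 0 < g₀ := hlam.trans_le (hge x₀)
  have hψd : ∀ x, HasDerivAt ψ (M * (prim g x - κ)) x := fun x =>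
    (((hasDerivAt_prim (continuous_prim hg) x).sub ((hasDerivAt_id x).const_mul κ)).const_mul M)
      |>.congr_deriv (by simp)
  have hφd : ∀ x, HasDerivAt (fun y => M * (prim g y - κ)) (M * g x) x := fun x =>
    ((hasDerivAt_prim hg x).sub_const κ).const_mul M
  have hMg : Continuous fun x => M * g x := continuous_const.mul hg
  have hψc : Continuous ψ := continuous_iff_continuousAt.2 fun x => (hψd x).continuousAt
  have hi : ∀ u v, IntervalIntegrable (fun x => ch (ψ x)) volume u v := fun u v =>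
    (continuous_ch.comp hψc).intervalIntegrable u v
  set r := R / s with hr
  have hr0 : 0 < r := div_pos hR hs0
  set a := x₀ - r with ha
  set b := x₀ + r with hb
  have hside : ∀ u v, u ≤ v → (v ≤ a ∨ b ≤ u) →
      ‖(s : ℂ) * ∫ x in u..v, ch (ψ x)‖ ≤ 1 / (lam * R) := by
    intro u v huv hor
    have h := first_deriv_le (m := M * (lam * r)) huv (by positivity) (fun x _ => hψd x)
      (fun x _ => hφd x) hMg (fun x _ => mul_nonneg hM.le (hlam.le.trans (hge x))) fun x hx => by
        rw [abs_mul, abs_of_pos hM]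
        refine mul_le_mul_of_nonneg_left ?_ hM.le
        rcases hor with h | h
        · have h2 := prim_sub_ge hg hge (show x ≤ x₀ by linarith [hx.2])
          have h3 : lam * r ≤ lam * (x₀ - x) :=
            mul_le_mul_of_nonneg_left (by linarith [hx.2]) hlam.le
          exact le_trans (by linarith) (neg_le_abs _)
        · have h2 := prim_sub_ge hg hge (show x₀ ≤ x by linarith [hx.1])
          have h3 : lam * r ≤ lam * (x - x₀) :=
            mul_le_mul_of_nonneg_left (by linarith [hx.1]) hlam.le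
          exact le_trans (by linarith) (le_abs_self _)
    rw [norm_mul, Complex.norm_real, Real.norm_eq_abs, abs_of_pos hs0]
    refine (mul_le_mul_of_nonneg_left h hs0.le).trans (le_of_eq ?_)
    rw [hr, ← hssq]
    field_simp
  -- the window, rescaled
  set W : ℂ := ∫ u in (-R)..R, ch (ψ (u / s + x₀)) with hW
  have hWe : (s : ℂ) * ∫ x in a..b, ch (ψ x) = W := by
    have h := intervalIntegral.smul_integral_comp_mul_add (fun x => ch (ψ x)) (a := -R) (b := R)
      s⁻¹ x₀
    rw [show s⁻¹ * -R + x₀ = a by rw [ha, hr]; ring, show s⁻¹ * R + x₀ = b by rw [hb, hr]; ring]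
      at h
    rw [← h, Complex.real_smul, ← mul_assoc, ← Complex.ofReal_mul, mul_inv_cancel₀ hs0.ne',
      Complex.ofReal_one, one_mul, hW]
    refine intervalIntegral.integral_congr fun u _ => ?_
    rw [mul_comm s⁻¹ u, ← div_eq_mul_inv]
  set L := M * (prim (prim g) x₀ - κ * x₀) with hL
  set Q : ℂ := ∫ u in (-R)..R, ch (g₀ * u ^ 2 / 2) with hQ
  have hω0 : 0 ≤ ω := le_trans (abs_nonneg _) (hω x₀ (by rw [sub_self, abs_zero]; exact hr0.le))
  have hconv : Convex ℝ (Set.Icc a b) := convex_Icc a b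
  have hxm : x₀ ∈ Set.Icc a b := ⟨by linarith, by linarith⟩
  have habs : ∀ x ∈ Set.Icc a b, |x - x₀| ≤ r := fun x hx =>
    abs_le.2 ⟨by linarith [hx.1], by linarith [hx.2]⟩
  have hE1 : ∀ x ∈ Set.Icc a b, |prim g x - κ - g₀ * (x - x₀)| ≤ ω * r := by
    intro x hx
    have h := hconv.norm_image_sub_le_of_norm_hasDerivWithin_le
      (f := fun y => prim g y - κ - g₀ * (y - x₀)) (f' := fun y => g y - g₀) (C := ω)
      (fun y _ => (((hasDerivAt_prim hg y).sub_const κ).sub
        (((hasDerivAt_id y).sub_const x₀).const_mul g₀)).congr_deriv (by simp) |>.hasDerivWithinAt)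
      (fun y hy => by rw [Real.norm_eq_abs]; exact hω y (habs y hy)) hxm hx
    simp only [Real.norm_eq_abs, sub_self, hκ, mul_zero, sub_zero] at h
    rw [hκ]
    exact h.trans (mul_le_mul_of_nonneg_left (habs x hx) hω0)
  have hE2 : ∀ x ∈ Set.Icc a b,
      |ψ x - (L + M * (g₀ * (x - x₀) ^ 2 / 2))| ≤ M * (ω * r) * r := by
    intro x hx
    have h := hconv.norm_image_sub_le_of_norm_hasDerivWithin_le
      (f := fun y => ψ y - (L + M * (g₀ * (y - x₀) ^ 2 / 2)))
      (f' := fun y => M * (prim g y - κ - g₀ * (y - x₀))) (C := M * (ω * r))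
      (fun y _ => ((hψd y).sub ((((((hasDerivAt_id y).sub_const x₀).pow 2).const_mul g₀).div_const
        2).const_mul M |>.const_add L)).congr_deriv (by simp; ring) |>.hasDerivWithinAt)
      (fun y hy => by
        rw [Real.norm_eq_abs, abs_mul, abs_of_pos hM]
        exact mul_le_mul_of_nonneg_left (hE1 y hy) hM.le) hxm hx
    have e : ψ x₀ - (L + M * (g₀ * (x₀ - x₀) ^ 2 / 2)) = 0 := by rw [hL]; simp [hψ]
    simp only [Real.norm_eq_abs, e, sub_zero] at h
    exact h.trans (mul_le_mul_of_nonneg_left (habs x hx) (by positivity))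
  have hWQ : ‖W - ch L * Q‖ ≤ 4 * Real.pi * ω * R ^ 3 := by
    rw [hW, hQ, ← intervalIntegral.integral_const_mul, ← intervalIntegral.integral_sub]
    rotate_left
    · exact (continuous_ch.comp (hψc.comp ((continuous_id.div_const s).add continuous_const)))
        |>.intervalIntegrable _ _
    · exact (continuous_const.mul (continuous_ch.comp
        ((continuous_const.mul (continuous_id.pow 2)).div_const 2))).intervalIntegrable _ _
    refine (intervalIntegral.norm_integral_le_of_norm_le_const (C := 2 * Real.pi * (ω * R ^ 2))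
      fun u hu => ?_).trans (le_of_eq ?_)
    · rw [Set.uIoc_of_le (by linarith)] at hu
      rw [← ch_add]
      have hx : u / s + x₀ ∈ Set.Icc a b := by
        have h1' : (-R) / s ≤ u / s := div_le_div_of_nonneg_right hu.1.le hs0.le
        have h2' : u / s ≤ R / s := div_le_div_of_nonneg_right hu.2 hs0.le
        rw [neg_div] at h1'
        exact ⟨by rw [ha, hr]; linarith, by rw [hb, hr]; linarith⟩
      have e1 : L + g₀ * u ^ 2 / 2 = L + M * (g₀ * (u / s + x₀ - x₀) ^ 2 / 2) := by
        rw [add_sub_cancel_right, div_pow, ← hssq]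
        field_simp
      have e2 : M * (ω * r) * r = ω * R ^ 2 := by rw [hr, ← hssq]; field_simp
      refine (norm_ch_sub_ch_le _ _).trans (mul_le_mul_of_nonneg_left ?_ (by positivity))
      rw [e1, ← e2]
      exact hE2 _ hx
    · rw [abs_of_nonneg (by linarith)]; ring
  set c := Real.sqrt g₀ with hc
  have hc0 : 0 < c := Real.sqrt_pos.2 hg0
  have hQe : (c : ℂ) * Q = fres (c * R) := by
    have h := intervalIntegral.smul_integral_comp_mul_left (fun v => ch (v ^ 2 / 2)) (a := -R)
      (b := R) c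
    rw [Complex.real_smul, mul_neg] at h
    rw [fres, ← h, hQ]
    congr 1
    refine intervalIntegral.integral_congr fun u _ => ?_
    rw [mul_pow, hc, Real.sq_sqrt hg0.le]
  have hQn : ‖ch L * Q - ((1 / c : ℝ) : ℂ) * ζ * ch L‖ ≤ 2 / (lam * R) := by
    have hcC : (c : ℂ) ≠ 0 := Complex.ofReal_ne_zero.2 hc0.ne'
    have e : ch L * Q - ((1 / c : ℝ) : ℂ) * ζ * ch L
        = ch L * (((1 / c : ℝ) : ℂ) * (fres (c * R) - ζ)) := by
      rw [← hQe]; push_cast; field_simp
    rw [e, norm_mul, norm_ch, one_mul, norm_mul, Complex.norm_real, Real.norm_eq_abs,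
      abs_of_pos (by positivity)]
    calc 1 / c * ‖fres (c * R) - ζ‖ ≤ 1 / c * (2 / (c * R)) :=
          mul_le_mul_of_nonneg_left (hζ _ (mul_pos hc0 hR)) (by positivity)
      _ = 2 / (g₀ * R) := by
          rw [hc, div_mul_div_comm, one_mul, ← mul_assoc, Real.mul_self_sqrt hg0.le]
      _ ≤ _ := div_le_div_of_nonneg_left zero_le_two (by positivity)
          (mul_le_mul_of_nonneg_right (hge x₀) hR.le)
  have hl := hside 0 a h0 (Or.inl le_rfl)
  have hr' := hside b 1 h1 (Or.inr le_rfl)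
  have hsplit : (s : ℂ) * ∫ x in (0 : ℝ)..1, ch (ψ x)
      = (s : ℂ) * (∫ x in (0 : ℝ)..a, ch (ψ x)) + W + (s : ℂ) * ∫ x in b..1, ch (ψ x) := by
    rw [← hWe, ← mul_add, ← mul_add,
      intervalIntegral.integral_add_adjacent_intervals (hi 0 a) (hi a b),
      intervalIntegral.integral_add_adjacent_intervals (hi 0 b) (hi b 1)]
  show ‖(s : ℂ) * (∫ x in (0 : ℝ)..1, ch (ψ x)) - ((1 / c : ℝ) : ℂ) * ζ * ch L‖ ≤ _
  rw [hsplit]
  calc ‖(s : ℂ) * (∫ x in (0 : ℝ)..a, ch (ψ x)) + W + (s : ℂ) * (∫ x in b..1, ch (ψ x))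
        - ((1 / c : ℝ) : ℂ) * ζ * ch L‖
      = ‖(s : ℂ) * (∫ x in (0 : ℝ)..a, ch (ψ x)) + (s : ℂ) * (∫ x in b..1, ch (ψ x))
          + ((W - ch L * Q) + (ch L * Q - ((1 / c : ℝ) : ℂ) * ζ * ch L))‖ := by congr 1; ring
    _ ≤ _ := (norm_add_le _ _).trans (add_le_add (norm_add_le _ _) (norm_add_le _ _))
    _ ≤ 1 / (lam * R) + 1 / (lam * R) + (4 * Real.pi * ω * R ^ 3 + 2 / (lam * R)) :=
        add_le_add (add_le_add hl hr') (add_le_add hWQ hQn)
    _ = _ := by ring

/-- The cut-off equal to `1` near the ends and to `0` in the middle. -/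
def tent (d x : ℝ) : ℝ := max 0 (min 1 (max ((2 * d - x) / d) ((x - (1 - 2 * d)) / d)))

theorem continuous_tent (d : ℝ) : Continuous (tent d) := by unfold tent; fun_prop

theorem tent_le_one (d x : ℝ) : tent d x ≤ 1 := max_le zero_le_one (min_le_left _ _)

theorem tent_nonneg (d x : ℝ) : 0 ≤ tent d x := le_max_left _ _

theorem tent_left {d x : ℝ} (hd : 0 < d) (hx : x ≤ d) : tent d x = 1 := by
  refine le_antisymm (tent_le_one d x) (le_max_of_le_right (le_min le_rfl (le_max_of_le_left ?_)))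
  rw [le_div_iff₀ hd]; linarith

theorem tent_right {d x : ℝ} (hd : 0 < d) (hx : 1 - d ≤ x) : tent d x = 1 := by
  refine le_antisymm (tent_le_one d x) (le_max_of_le_right (le_min le_rfl (le_max_of_le_right ?_)))
  rw [le_div_iff₀ hd]; linarith

theorem tent_mid {d x : ℝ} (hd : 0 < d) (h1 : 2 * d ≤ x) (h2 : x ≤ 1 - 2 * d) : tent d x = 0 := by
  refine le_antisymm (max_le le_rfl (min_le_of_right_le (max_le ?_ ?_))) (tent_nonneg d x)
  · exact div_nonpos_of_nonpos_of_nonneg (by linarith) hd.le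
  · exact div_nonpos_of_nonpos_of_nonneg (by linarith) hd.le

theorem tent_mass {d : ℝ} (hd : 0 < d) (hd4 : d ≤ 1 / 4) :
    0 < (∫ x in (0 : ℝ)..1, tent d x) ∧ (∫ x in (0 : ℝ)..1, tent d x) ≤ 4 * d := by
  have hi : ∀ u v, IntervalIntegrable (tent d) volume u v := fun u v =>
    (continuous_tent d).intervalIntegrable u v
  constructor
  · rw [← intervalIntegral.integral_add_adjacent_intervals (hi 0 d) (hi d 1)]
    have h1 : ∫ x in (0 : ℝ)..d, tent d x = d := by
      rw [intervalIntegral.integral_congr (g := fun _ => (1 : ℝ)) fun x hx => ?_]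
      · simp
      · rw [Set.uIcc_of_le hd.le] at hx
        exact tent_left hd hx.2
    rw [h1]
    exact add_pos_of_pos_of_nonneg hd
      (intervalIntegral.integral_nonneg (by linarith) fun x _ => tent_nonneg d x)
  · rw [← intervalIntegral.integral_add_adjacent_intervals (hi 0 (2 * d)) (hi (2 * d) 1),
      ← intervalIntegral.integral_add_adjacent_intervals (hi (2 * d) (1 - 2 * d))
        (hi (1 - 2 * d) 1)]
    have h1 : ∀ u v, u ≤ v → ∫ x in u..v, tent d x ≤ v - u := fun u v huv => by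
      refine (intervalIntegral.integral_mono huv (hi u v)
        (continuous_const.intervalIntegrable u v) (tent_le_one d)).trans (le_of_eq ?_)
      rw [intervalIntegral.integral_const, smul_eq_mul, mul_one]
    have h2 : ∫ x in (2 * d)..(1 - 2 * d), tent d x = 0 := by
      rw [intervalIntegral.integral_congr (g := fun _ => (0 : ℝ)) fun x hx => ?_]
      · simp
      · rw [Set.uIcc_of_le (by linarith)] at hx
        exact tent_mid hd hx.1 hx.2
    linarith [h1 0 (2 * d) (by linarith), h1 (1 - 2 * d) 1 (by linarith)]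

/-- The oscillatory integral without a stationary point in the middle. -/
theorem outside_le {g : ℝ → ℝ} (hgc : Continuous g) {lam K ε d κ M : ℝ} (hlam0 : 0 < lam)
    (hK0 : 0 < K) (hε0 : 0 < ε) (hd0 : 0 < d) (hd4 : d ≤ 1 / 4) (hge : ∀ x, lam ≤ g x)
    (hgl : ∀ x, g x = lam + K * tent d x) (hKbig : 4 / Real.sqrt K ≤ ε / 2) (hM0 : 0 < M)
    (hMe : (4 / (ε * (lam * (d / 2)))) ^ 2 ≤ M)
    (hκ : κ ≤ prim g (d / 2) ∨ prim g (1 - d / 2) ≤ κ) :
    Real.sqrt M * ‖∫ x in (0 : ℝ)..1, ch (M * (prim (prim g) x - κ * x))‖ ≤ ε := by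
  set H := prim g with hH
  set s := Real.sqrt M with hs
  have hs0 : 0 < s := Real.sqrt_pos.2 hM0
  have hlow : ∀ y : ℝ, 0 ≤ y → y ^ 2 ≤ M → y ≤ s := fun y _ h2 => Real.le_sqrt_of_sq_le h2
  set ψ : ℝ → ℝ := fun x => M * (prim H x - κ * x) with hψ
  have hψd : ∀ x, HasDerivAt ψ (M * (H x - κ)) x := fun x =>
    (((hasDerivAt_prim (continuous_prim hgc) x).sub ((hasDerivAt_id x).const_mul κ)).const_mul M)
      |>.congr_deriv (by simp [hH])
  have hφd : ∀ x, HasDerivAt (fun y => M * (H y - κ)) (M * g x) x := fun x =>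
    ((hasDerivAt_prim hgc x).sub_const κ).const_mul M
  have hMg : Continuous fun x => M * g x := continuous_const.mul hgc
  have hψc : Continuous ψ := continuous_iff_continuousAt.2 fun x => (hψd x).continuousAt
  have hii : ∀ u v, IntervalIntegrable (fun x => ch (ψ x)) volume u v := fun u v =>
    (continuous_ch.comp hψc).intervalIntegrable u v
  have hend : ∀ u v, u ≤ v → (∀ x ∈ Set.Icc u v, tent d x = 1) →
      s * ‖∫ x in u..v, ch (ψ x)‖ ≤ ε / 2 := by
    intro u v huv ht
    have h := second_deriv_le (lam := M * K) huv (by positivity) hψd hφd hMg fun x hx => by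
      refine mul_le_mul_of_nonneg_left ?_ hM0.le
      rw [hgl, ht x hx]
      linarith
    refine (mul_le_mul_of_nonneg_left h hs0.le).trans (le_trans (le_of_eq ?_) hKbig)
    rw [Real.sqrt_mul hM0.le, ← hs]
    field_simp
  have hmid : ∀ u v, u ≤ v → (∀ x ∈ Set.Icc u v, lam * (d / 2) ≤ |H x - κ|) →
      s * ‖∫ x in u..v, ch (ψ x)‖ ≤ ε / 2 := by
    intro u v huv hlw
    have h := first_deriv_le (m := M * (lam * (d / 2))) huv (by positivity)
      (fun x _ => hψd x) (fun x _ => hφd x) hMg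
      (fun x _ => mul_nonneg hM0.le (hlam0.le.trans (hge x))) fun x hx => by
        rw [abs_mul, abs_of_pos hM0]
        exact mul_le_mul_of_nonneg_left (hlw x hx) hM0.le
    refine (mul_le_mul_of_nonneg_left h hs0.le).trans ?_
    have h2 := hlow _ (by positivity) hMe
    have hpos : 0 < lam * (d / 2) := by positivity
    rw [mul_one_div, div_le_iff₀ (by positivity), ← Real.mul_self_sqrt hM0.le, ← hs]
    rw [div_le_iff₀ (by positivity)] at h2
    nlinarith
  rcases hκ with h | h
  · have hsplit := intervalIntegral.integral_add_adjacent_intervals (hii 0 d) (hii d 1)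
    show s * ‖∫ x in (0 : ℝ)..1, ch (ψ x)‖ ≤ ε
    rw [← hsplit]
    have h1 := hend 0 d hd0.le fun x hx => tent_left hd0 hx.2
    have h2 := hmid d 1 (by linarith) fun x hx => by
      have h3 := prim_sub_ge hgc hge (show d / 2 ≤ x by linarith [hx.1])
      have h4 : lam * (d / 2) ≤ lam * (x - d / 2) :=
        mul_le_mul_of_nonneg_left (by linarith [hx.1]) hlam0.le
      exact le_trans (by linarith) (le_abs_self _)
    nlinarith [norm_add_le (∫ x in (0 : ℝ)..d, ch (ψ x)) (∫ x in d..1, ch (ψ x))]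
  · have hsplit := intervalIntegral.integral_add_adjacent_intervals (hii 0 (1 - d))
      (hii (1 - d) 1)
    show s * ‖∫ x in (0 : ℝ)..1, ch (ψ x)‖ ≤ ε
    rw [← hsplit]
    have h1 := hend (1 - d) 1 (by linarith) fun x hx => tent_right hd0 hx.1
    have h2 := hmid 0 (1 - d) (by linarith) fun x hx => by
      have h3 := prim_sub_ge hgc hge (show x ≤ 1 - d / 2 by linarith [hx.2])
      have h4 : lam * (d / 2) ≤ lam * (1 - d / 2 - x) :=
        mul_le_mul_of_nonneg_left (by linarith [hx.2]) hlam0.le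
      exact le_trans (by linarith) (neg_le_abs _)
    nlinarith [norm_add_le (∫ x in (0 : ℝ)..(1 - d), ch (ψ x)) (∫ x in (1 - d)..1, ch (ψ x))]

/-- Module Profile. -/
theorem profile : ProfileStatement := by
  intro ε₀ hε₀
  set ε := min ε₀ 1 with hε
  have hε0 : 0 < ε := lt_min hε₀ one_pos
  obtain ⟨ζ, hζ1, hζ⟩ := exists_fres_limit
  set lam := 1 / (1 + ε) with hlam
  have hlam0 : 0 < lam := by positivity
  have hlam1 : lam < 1 := by rw [hlam, div_lt_one (by positivity)]; linarith
  set d := min (1 / 4) ((1 - lam) * (ε / 8) ^ 2 / 4) with hd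
  have h1lam : 0 < 1 - lam := sub_pos.2 hlam1
  have hd0 : 0 < d := lt_min (by norm_num) (by positivity)
  have hd4 : d ≤ 1 / 4 := min_le_left _ _
  obtain ⟨hI0, hI4⟩ := tent_mass hd0 hd4
  set I := ∫ x in (0 : ℝ)..1, tent d x with hI
  set K := (1 - lam) / I with hK
  have hK0 : 0 < K := div_pos h1lam hI0
  have hKbig : 4 / Real.sqrt K ≤ ε / 2 := by
    have h1 : (8 / ε) ^ 2 ≤ K := by
      rw [hK, le_div_iff₀ hI0]
      have h2 : d ≤ (1 - lam) * (ε / 8) ^ 2 / 4 := min_le_right _ _
      calc (8 / ε) ^ 2 * I ≤ (8 / ε) ^ 2 * (4 * ((1 - lam) * (ε / 8) ^ 2 / 4)) :=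
            mul_le_mul_of_nonneg_left (by linarith) (sq_nonneg _)
        _ = 1 - lam := by field_simp
    have h2 := Real.sqrt_le_sqrt h1
    rw [Real.sqrt_sq (by positivity)] at h2
    rw [div_le_iff₀ (Real.sqrt_pos.2 hK0)]
    calc (4 : ℝ) = ε / 2 * (8 / ε) := by field_simp; ring
      _ ≤ _ := mul_le_mul_of_nonneg_left h2 (by positivity)
  set g : ℝ → ℝ := fun x => lam + K * tent d x with hg
  have hgc : Continuous g := continuous_const.add (continuous_const.mul (continuous_tent d))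
  have hge : ∀ x, lam ≤ g x := fun x => le_add_of_nonneg_right (mul_nonneg hK0.le (tent_nonneg d x))
  set H := prim g with hH
  have hH0 : H 0 = 0 := intervalIntegral.integral_same
  have hH1 : H 1 = 1 := by
    rw [hH, prim]
    simp only [hg]
    rw [intervalIntegral.integral_add (f := fun _ => lam) (g := fun x => K * tent d x)
      (continuous_const.intervalIntegrable _ _)
      ((continuous_const.mul (continuous_tent d)).intervalIntegrable _ _),
      intervalIntegral.integral_const, intervalIntegral.integral_const_mul, ← hI, hK,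
      div_mul_cancel₀ _ hI0.ne']
    simp
  have hmono : ∀ u v, u ≤ v → H u ≤ H v := fun u v h => by
    have := prim_sub_ge hgc hge h
    have : 0 ≤ lam * (v - u) := mul_nonneg hlam0.le (sub_nonneg.2 h)
    linarith
  classical
  set lo := H (d / 2) with hlo
  set hi := H (1 - d / 2) with hhi
  have hex : ∀ κ : ℝ, κ ∈ Set.Ioo lo hi → ∃ x ∈ Set.Icc (d / 2) (1 - d / 2), H x = κ := fun κ hκ =>
    intermediate_value_Icc (by linarith) (continuous_prim hgc).continuousOn ⟨hκ.1.le, hκ.2.le⟩
  set X : ℝ → ℝ := fun κ => if h : κ ∈ Set.Ioo lo hi then (hex κ h).choose else 1 / 2 with hX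
  have hXs : ∀ κ ∈ Set.Ioo lo hi,
      X κ ∈ Set.Icc (d / 2) (1 - d / 2) ∧ H (X κ) = κ := fun κ h => by
    simp only [hX, dif_pos h]; exact (hex κ h).choose_spec
  set ρ : ℝ → ℝ := fun κ => if κ ∈ Set.Ioo lo hi then 1 / Real.sqrt (g (X κ)) else 0 with hρ
  set Λ : ℝ → ℝ := fun κ => prim H (X κ) - κ * X κ with hΛ
  set R := 16 / (lam * ε) with hR
  have hR0 : 0 < R := by positivity
  set ω := ε / (4 * Real.pi * R ^ 3 * 4) with hω
  have hω0 : 0 < ω := by positivity
  obtain ⟨δ, hδ, hδω⟩ := Metric.uniformContinuousOn_iff.1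
    (isCompact_Icc.uniformContinuousOn_of_continuous (s := Set.Icc (0 : ℝ) 1) hgc.continuousOn)
    ω hω0
  refine ⟨H, ρ, Λ, ζ, max (max 1 ((2 * R / d) ^ 2))
    (max ((2 * R / δ) ^ 2) ((4 / (ε * (lam * (d / 2)))) ^ 2)),
    continuous_prim hgc, hH0, hH1, fun x hx => ⟨hH0 ▸ hmono 0 x hx.1, hH1 ▸ hmono x 1 hx.2⟩,
    fun κ => ?_, fun κ hκ => ?_, hζ1, fun M hM κ => ?_⟩
  · simp only [hρ]
    have hεε : ε ≤ ε₀ := min_le_left _ _
    split
    · rw [abs_of_nonneg (by positivity), div_le_iff₀ (Real.sqrt_pos.2 (hlam0.trans_le (hge _)))]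
      have h1 : lam ≤ Real.sqrt lam := Real.le_sqrt_of_sq_le (by nlinarith)
      have h2 := Real.sqrt_le_sqrt (hge (X κ))
      calc (1 : ℝ) = (1 + ε) * lam := by rw [hlam]; field_simp
        _ ≤ (1 + ε₀) * Real.sqrt (g (X κ)) :=
            mul_le_mul (by linarith) (h1.trans h2) hlam0.le (by linarith)
    · rw [abs_zero]; linarith
  · simp only [hρ]
    refine if_neg fun h => hκ ⟨?_, ?_⟩
    · exact lt_of_le_of_lt (hH0 ▸ hmono 0 (d / 2) (by linarith)) h.1
    · exact lt_of_lt_of_le h.2 (hH1 ▸ hmono (1 - d / 2) 1 (by linarith))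
  simp only [max_le_iff] at hM
  obtain ⟨⟨hM1, hMd⟩, hMδ, hMe⟩ := hM
  have hM0 : 0 < M := by linarith
  set s := Real.sqrt M with hs
  have hs0 : 0 < s := Real.sqrt_pos.2 hM0
  have hlow : ∀ y : ℝ, 0 ≤ y → y ^ 2 ≤ M → y ≤ s := fun y _ h2 => Real.le_sqrt_of_sq_le h2
  refine le_trans ?_ (min_le_left ε₀ 1)
  show ‖(s : ℂ) * (∫ x in (0 : ℝ)..1, ch (M * (prim H x - κ * x))) -
    (ρ κ : ℂ) * ζ * ch (M * Λ κ)‖ ≤ ε
  by_cases hκ : κ ∈ Set.Ioo lo hi
  · obtain ⟨⟨hx1, hx2⟩, hxκ⟩ := hXs κ hκ
    set x₀ := X κ with hx₀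
    have hr1 : R / s ≤ d / 2 := by
      rw [div_le_iff₀ hs0]
      have h2 := mul_le_mul_of_nonneg_left (hlow _ (by positivity) hMd)
        (by linarith : (0 : ℝ) ≤ d / 2)
      calc R = d / 2 * (2 * R / d) := by field_simp
        _ ≤ _ := h2
    have hr2 : R / s < δ := by
      rw [div_lt_iff₀ hs0]
      have h2 := mul_le_mul_of_nonneg_left (hlow _ (by positivity) hMδ) hδ.le
      have h3 : δ * (2 * R / δ) = 2 * R := by field_simp
      linarith
    have hmem : ∀ x, |x - x₀| ≤ R / s → |g x - g x₀| ≤ ω := by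
      intro x hx
      have hx' := abs_le.1 hx
      have := hδω x ⟨by linarith, by linarith⟩ x₀ ⟨by linarith, by linarith⟩
        (by rw [Real.dist_eq]; linarith)
      rw [Real.dist_eq] at this
      exact this.le
    have h := stationary_le hgc hlam0 hge hζ hR0 hM0 (by linarith) (by linarith) hmem
    rw [← hH, hxκ] at h
    have hρe : ρ κ = 1 / Real.sqrt (g x₀) := if_pos hκ
    rw [hρe]
    refine h.trans ?_
    have h4 : 4 / (lam * R) = ε / 4 := by rw [hR]; field_simp; ring
    have h5 : 4 * Real.pi * ω * R ^ 3 = ε / 4 := by rw [hω]; field_simp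
    linarith
  · have hρ0 : ρ κ = 0 := if_neg hκ
    rw [hρ0, Complex.ofReal_zero, zero_mul, zero_mul, sub_zero, norm_mul, Complex.norm_real,
      Real.norm_eq_abs, abs_of_pos hs0]
    refine outside_le hgc hlam0 hK0 hε0 hd0 hd4 hge (fun x => rfl) hKbig hM0 hMe ?_
    exact (not_and_or.1 hκ).imp le_of_not_gt le_of_not_gt

end Vale.Agent.P110.Full
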