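import Vale.Agent.P110.Full.Statements
import Vale.Agent.P110.Round.Main

/-!
Module Rounding, from the rounding theorem `Vale.Agent.P110.Round.round_flat`.
-/

noncomputable section

namespace Vale.Agent.P110.Full

theorem rounding : RoundingStatement := by
  intro ε hε
  obtain ⟨δ, hδ, N₀, h⟩ := Vale.Agent.P110.Round.round_flat ε hε
  refine ⟨δ, hδ, N₀, fun N hN c hc hs => ?_⟩
  have hsum : ∑ k, (1 - |c k|) ≤ δ * N := by
    refine le_trans (Finset.sum_le_sum fun k _ => ?_) hs
    have h1 := mul_le_mul_of_nonneg_right (hc k) (abs_nonneg (c k))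
    rw [abs_mul_abs_self] at h1
    rw [sq]
    linarith
  obtain ⟨y, hy, hy'⟩ := h N hN c hc hsum
  refine ⟨y, hy, fun θ => ?_⟩
  have hz : ‖ch θ‖ = 1 := Complex.norm_exp_ofReal_mul_I _
  have e : poly y θ - poly c θ =
      ∑ k : Fin N, ((y k - c k : ℝ) : ℂ) * ch θ ^ (k : ℕ) := by
    rw [poly, poly, ← Finset.sum_sub_distrib]
    refine Finset.sum_congr rfl fun k _ => ?_
    have hp : ch ((k : ℕ) * θ) = ch θ ^ (k : ℕ) := by
      rw [ch, ch, ← Complex.exp_nat_mul]
      congr 1
      push_cast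
      ring
    rw [hp, Complex.ofReal_sub, sub_mul]
  rw [e]
  exact hy' _ hz

end Vale.Agent.P110.Full
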