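import Mathlib
import Vale.Agent.P110.Full.Main

/-!
Module Square: a product of smoothed square waves without its non-primitive harmonics is bounded
by one, has energy close to one and small coefficients.
-/

noncomputable section

namespace Vale.Agent.P110.Full.SquareWave

open Finset
open scoped ComplexConjugate

lemma ch_zero : ch 0 = 1 := by simp [ch]

lemma ch_intCast (k : ℤ) : ch (k : ℝ) = 1 := by
  rw [ch, Complex.exp_eq_one_iff]
  exact ⟨k, by push_cast; ring⟩

lemma ch_add_int (x : ℝ) (k : ℤ) : ch (x + k) = ch x := by rw [ch_add, ch_intCast, mul_one]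

lemma eq_int_of_ch_eq_one {x : ℝ} (h : ch x = 1) : ∃ k : ℤ, x = k := by
  rw [ch, Complex.exp_eq_one_iff] at h
  obtain ⟨k, hk⟩ := h
  refine ⟨k, ?_⟩
  have h2 := congrArg Complex.im hk
  simp at h2
  have h4 : (2 * Real.pi) * (x - k) = 0 := by linarith
  have := (mul_eq_zero.1 h4).resolve_left (by positivity)
  linarith

lemma ch_sum {ι : Type*} (s : Finset ι) (f : ι → ℝ) : ch (∑ i ∈ s, f i) = ∏ i ∈ s, ch (f i) := by
  classical
  induction s using Finset.induction_on with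
  | empty => simp [ch_zero]
  | insert i s hi ih => rw [Finset.sum_insert hi, Finset.prod_insert hi, ch_add, ih]

/-- Orthogonality of characters on a grid. -/
lemma grid {P : ℕ} (hP : 0 < P) (m : ℤ) :
    ∑ j ∈ range P, ch ((m : ℝ) * ((j : ℕ) / P)) = if (P : ℤ) ∣ m then (P : ℂ) else 0 := by
  have hP' : (P : ℝ) ≠ 0 := Nat.cast_ne_zero.2 hP.ne'
  have hterm : ∀ j : ℕ, ch ((m : ℝ) * ((j : ℕ) / P)) = ch ((m : ℝ) / P) ^ j := fun j => by
    rw [ch_pow]; congr 1; ring
  simp only [hterm]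
  have hpow : ch ((m : ℝ) / P) ^ P = 1 := by
    rw [ch_pow, mul_div_cancel₀ _ hP']; exact ch_intCast m
  split_ifs with hd
  · obtain ⟨k, rfl⟩ := hd
    have : ((((P : ℤ) * k : ℤ) : ℝ) / P) = (k : ℝ) := by push_cast; field_simp
    rw [this, ch_intCast]
    simp
  · have hne : ch ((m : ℝ) / P) ≠ 1 := by
      intro h
      obtain ⟨k, hk⟩ := eq_int_of_ch_eq_one h
      rw [div_eq_iff hP'] at hk
      exact hd ⟨k, by rw [mul_comm]; exact_mod_cast hk⟩
    rw [geom_sum_eq hne, hpow]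
    simp

/-- A bound on a trigonometric polynomial bounds the sum of squares of its coefficients. -/
lemma parseval {n : ℕ} {s : Finset ℤ} (hs : s ⊆ Finset.Ioo (-(n : ℤ)) n) (c : ℤ → ℂ) {B : ℝ}
    (hB : ∀ x : ℝ, ‖∑ m ∈ s, c m * ch ((m : ℝ) * x)‖ ≤ B) : ∑ m ∈ s, ‖c m‖ ^ 2 ≤ B ^ 2 := by
  rcases s.eq_empty_or_nonempty with rfl | hne
  · simpa using sq_nonneg B
  obtain ⟨m0, hm0⟩ := hne
  have hn : 0 < 2 * n := by have := Finset.mem_Ioo.1 (hs hm0); omega
  set f : ℝ → ℂ := fun x => ∑ m ∈ s, c m * ch ((m : ℝ) * x) with hf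
  have key : ∑ j ∈ range (2 * n), f ((j : ℕ) / (2 * n : ℕ)) * conj (f ((j : ℕ) / (2 * n : ℕ))) =
      ((2 * n : ℕ) : ℂ) * ∑ m ∈ s, c m * conj (c m) := by
    simp only [hf, map_sum, map_mul, conj_ch, Finset.sum_mul_sum]
    rw [Finset.sum_comm, Finset.mul_sum]
    refine Finset.sum_congr rfl fun m hm => ?_
    rw [Finset.sum_comm, Finset.sum_eq_single m]
    · have : ∀ x : ℝ, c m * ch ((m : ℝ) * x) * (conj (c m) * ch (-((m : ℝ) * x))) =
          c m * conj (c m) := fun x => by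
        rw [mul_mul_mul_comm, ← ch_add, add_neg_cancel, ch_zero, mul_one]
      simp [this]
    · intro k hk hkm
      have : ∀ x : ℝ, c m * ch ((m : ℝ) * x) * (conj (c k) * ch (-((k : ℝ) * x))) =
          c m * conj (c k) * ch (((m - k : ℤ) : ℝ) * x) := fun x => by
        rw [mul_mul_mul_comm, ← ch_add]
        congr 2
        push_cast; ring
      simp only [this, ← Finset.mul_sum]
      rw [grid hn, if_neg, mul_zero]
      intro hd
      have h1 := Finset.mem_Ioo.1 (hs hm)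
      have h2 := Finset.mem_Ioo.1 (hs hk)
      have := Int.eq_zero_of_abs_lt_dvd hd (by push_cast; exact abs_lt.2 ⟨by omega, by omega⟩)
      omega
    · intro h; exact absurd hm h
  simp only [Complex.mul_conj, Complex.normSq_eq_norm_sq] at key
  have key' : ∑ j ∈ range (2 * n), ‖f ((j : ℕ) / (2 * n : ℕ))‖ ^ 2 =
      ((2 * n : ℕ) : ℝ) * ∑ m ∈ s, ‖c m‖ ^ 2 := by
    exact_mod_cast key
  have h2 := Finset.sum_le_card_nsmul (range (2 * n))
    (fun j => ‖f ((j : ℕ) / (2 * n : ℕ))‖ ^ 2) (B ^ 2)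
    fun j _ => pow_le_pow_left₀ (norm_nonneg _) (hB _) 2
  rw [key', Finset.card_range, nsmul_eq_mul] at h2
  exact le_of_mul_le_mul_left h2 (Nat.cast_pos.2 hn)

/-- The sampled square wave of half period `M`. -/
def sgnv (M r : ℕ) : ℝ := if r < M then 1 else -1

/-- The Fejér kernel. -/
def kern (n : ℕ) (y : ℝ) : ℝ := ‖∑ k ∈ range n, ch ((k : ℝ) * y)‖ ^ 2 / n

/-- The smoothed square wave. -/
def wave (n M : ℕ) (x : ℝ) : ℝ :=
  (∑ r ∈ range (2 * M), sgnv M r * kern n (x - (r : ℝ) / (2 * M : ℕ))) / (2 * M : ℕ)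

/-- The discrete Fourier coefficient of the square wave. -/
def scoef (M : ℕ) (m : ℤ) : ℂ :=
  (∑ r ∈ range (2 * M), (sgnv M r : ℂ) * ch (-((m : ℝ) * r / (2 * M : ℕ)))) / (2 * M : ℕ)

/-- The number of pairs below `n` with difference `m`. -/
def cnt (n : ℕ) (m : ℤ) : ℕ :=
  ((range n ×ˢ range n).filter fun p => ((p.1 : ℤ) - p.2) = m).card

/-- The coefficient of the smoothed square wave. -/
def acoef (n M : ℕ) (m : ℤ) : ℂ := (cnt n m : ℂ) / n * scoef M m

/-- The odd frequencies below `n`. -/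
def freqs (n : ℕ) : Finset ℤ := (Finset.Ioo (-(n : ℤ)) n).filter fun m => Odd m

/-- The part of the wave at frequencies divisible by `d`. -/
def part (n M d : ℕ) (x : ℝ) : ℂ :=
  ∑ m ∈ (freqs n).filter (fun m => (d : ℤ) ∣ m), acoef n M m * ch ((m : ℝ) * x)

lemma kern_nonneg (n : ℕ) (y : ℝ) : 0 ≤ kern n y := by unfold kern; positivity

lemma kern_expand (n : ℕ) (y : ℝ) : (kern n y : ℂ) =
    (∑ p ∈ range n ×ˢ range n, ch ((((p.1 : ℤ) - p.2 : ℤ) : ℝ) * y)) / n := by
  rw [kern, Finset.sum_product]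
  push_cast
  rw [← Complex.mul_conj', map_sum, Finset.sum_mul_sum]
  refine congrArg (· / (n : ℂ)) (Finset.sum_congr rfl fun k _ => Finset.sum_congr rfl fun l _ => ?_)
  rw [conj_ch, ← ch_add]
  congr 1
  ring

lemma kern_add_int (n : ℕ) (y : ℝ) (k : ℤ) : kern n (y + k) = kern n y := by
  unfold kern
  congr 3
  refine Finset.sum_congr rfl fun j _ => ?_
  rw [mul_add, ← ch_add_int ((j : ℝ) * y) (j * k)]
  push_cast
  rfl

lemma scoef_even {M : ℕ} (hM : 0 < M) {m : ℤ} (hm : Even m) : scoef M m = 0 := by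
  obtain ⟨k, rfl⟩ := hm
  have hM' : (M : ℝ) ≠ 0 := Nat.cast_ne_zero.2 hM.ne'
  rw [scoef, show range (2 * M) = range (M + M) by rw [two_mul], Finset.sum_range_add,
    ← Finset.sum_add_distrib, Finset.sum_eq_zero, zero_div]
  intro r hr
  rw [Finset.mem_range] at hr
  rw [sgnv, if_pos hr, sgnv, if_neg (by omega), show -(((k + k : ℤ) : ℝ) * ((M + r : ℕ) : ℝ) /
      (2 * M : ℕ)) = -(((k + k : ℤ) : ℝ) * (r : ℝ) / (2 * M : ℕ)) + ((-k : ℤ) : ℝ) by
    push_cast; field_simp; ring, ch_add_int]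
  push_cast
  ring

lemma scoef_odd {M : ℕ} (hM : 0 < M) {m : ℤ} (hm : Odd m) :
    2 / (Real.pi * |(m : ℝ)|) ≤ ‖scoef M m‖ := by
  obtain ⟨k, rfl⟩ := hm
  have hM' : (M : ℝ) ≠ 0 := Nat.cast_ne_zero.2 hM.ne'
  set z := ch (-(((2 * k + 1 : ℤ) : ℝ) / (2 * M : ℕ))) with hz
  have hzM : z ^ M = -1 := by
    rw [hz, ch_pow, show (M : ℝ) * -(((2 * k + 1 : ℤ) : ℝ) / (2 * M : ℕ)) =
      -(1 / 2 : ℝ) + ((-k : ℤ) : ℝ) by push_cast; field_simp; ring, ch_add_int, ch]
    rw [show ((2 * Real.pi * -(1 / 2) : ℝ) : ℂ) * Complex.I = -(Real.pi * Complex.I) by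
      push_cast; ring, Complex.exp_neg, Complex.exp_pi_mul_I]
    norm_num
  have hz1 : z ≠ 1 := fun h => by rw [h, one_pow] at hzM; norm_num at hzM
  have hval : scoef M (2 * k + 1) = -2 / ((z - 1) * M) := by
    rw [scoef, show range (2 * M) = range (M + M) by rw [two_mul], Finset.sum_range_add,
      ← Finset.sum_add_distrib, Finset.sum_congr rfl (g := fun r => 2 * z ^ r)]
    · rw [← Finset.mul_sum, geom_sum_eq hz1, hzM]
      push_cast
      have : (z - 1) ≠ 0 := sub_ne_zero.2 hz1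
      have : (M : ℂ) ≠ 0 := Nat.cast_ne_zero.2 hM.ne'
      field_simp
      ring
    · intro r hr
      rw [Finset.mem_range] at hr
      have h1 : ch (-(((2 * k + 1 : ℤ) : ℝ) * r / (2 * M : ℕ))) = z ^ r := by
        rw [hz, ch_pow]; congr 1; ring
      have h2 : ch (-(((2 * k + 1 : ℤ) : ℝ) * ((M + r : ℕ) : ℝ) / (2 * M : ℕ))) = -z ^ r := by
        rw [show -(((2 * k + 1 : ℤ) : ℝ) * ((M + r : ℕ) : ℝ) / (2 * M : ℕ)) =
          (M : ℝ) * -(((2 * k + 1 : ℤ) : ℝ) / (2 * M : ℕ)) +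
            (r : ℝ) * -(((2 * k + 1 : ℤ) : ℝ) / (2 * M : ℕ)) by push_cast; field_simp; ring,
          ch_add, ← ch_pow, ← ch_pow, ← hz, hzM]
        ring
      rw [sgnv, if_pos hr, sgnv, if_neg (by omega), h1, h2]
      push_cast
      ring
  have hb : ‖z - 1‖ ≤ Real.pi * |((2 * k + 1 : ℤ) : ℝ)| / M := by
    rw [hz, ch, mul_comm ((2 * Real.pi * _ : ℝ) : ℂ)]
    refine Real.norm_exp_I_mul_ofReal_sub_one_le.trans (le_of_eq ?_)
    rw [Real.norm_eq_abs]
    simp [abs_mul, abs_div, abs_of_pos Real.pi_pos]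
    field_simp
  rw [hval, norm_div, norm_mul, norm_neg, Complex.norm_natCast, Complex.norm_two]
  have hpos : 0 < ‖z - 1‖ * (M : ℝ) := by
    have : 0 < ‖z - 1‖ := norm_pos_iff.2 (sub_ne_zero.2 hz1)
    positivity
  refine div_le_div_of_nonneg_left zero_le_two hpos ?_
  rw [le_div_iff₀ (Nat.cast_pos.2 hM)] at hb
  exact hb

lemma cnt_neg (n : ℕ) (m : ℤ) : cnt n (-m) = cnt n m := by
  refine Finset.card_bij (fun p _ => (p.2, p.1)) ?_ ?_ ?_
  · intro p hp; simp only [Finset.mem_filter, Finset.mem_product, Finset.mem_range] at hp ⊢; omega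
  · intro p _ q _ h
    simp only [Prod.mk.injEq] at h
    exact Prod.ext h.2 h.1
  · intro p hp
    exact ⟨(p.2, p.1), by simp only [Finset.mem_filter, Finset.mem_product, Finset.mem_range] at hp ⊢; omega, rfl⟩

lemma le_cnt (n j : ℕ) : n ≤ cnt n (j : ℤ) + j := by
  have : (range (n - j)).card ≤ cnt n (j : ℤ) := by
    refine Finset.card_le_card_of_injOn (fun l => (l + j, l)) ?_ ?_
    · intro l hl
      simp only [Finset.coe_range, Set.mem_Iio] at hl
      simp only [Finset.coe_filter, Set.mem_ofPred_eq, Finset.mem_product, Finset.mem_range]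
      omega
    · intro a _ b _ h
      exact (Prod.mk.injEq _ _ _ _ ▸ h).2
  rw [Finset.card_range] at this
  omega

lemma scoef_neg (M : ℕ) (m : ℤ) : scoef M (-m) = conj (scoef M m) := by
  simp only [scoef, map_div₀, map_sum, map_mul, Complex.conj_ofReal, conj_ch, map_natCast]
  refine congrArg (· / _) (Finset.sum_congr rfl fun r _ => ?_)
  congr 2
  push_cast
  ring

lemma acoef_neg (n M : ℕ) (m : ℤ) : acoef n M (-m) = conj (acoef n M m) := by
  simp only [acoef, cnt_neg, scoef_neg, map_mul, map_div₀, map_natCast]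

lemma wave_expand {n M : ℕ} (hM : 0 < M) (x : ℝ) :
    (wave n M x : ℂ) = ∑ m ∈ freqs n, acoef n M m * ch ((m : ℝ) * x) := by
  have h1 : (wave n M x : ℂ) =
      ∑ p ∈ range n ×ˢ range n, (scoef M ((p.1 : ℤ) - p.2) *
        ch ((((p.1 : ℤ) - p.2 : ℤ) : ℝ) * x)) / n := by
    rw [wave]
    push_cast
    simp only [kern_expand, Finset.mul_sum, Finset.sum_div, mul_div_assoc']
    rw [Finset.sum_comm]
    refine Finset.sum_congr rfl fun p _ => ?_
    rw [scoef, Finset.sum_div, Finset.sum_mul, Finset.sum_div]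
    refine Finset.sum_congr rfl fun r _ => ?_
    rw [mul_sub, sub_eq_add_neg, ch_add]
    push_cast
    ring_nf
  rw [h1, freqs, Finset.sum_filter_of_ne, ← Finset.sum_fiberwise_of_maps_to
    (s := range n ×ˢ range n) (t := Finset.Ioo (-(n : ℤ)) n)
    (g := fun p => (p.1 : ℤ) - p.2)]
  · refine Finset.sum_congr rfl fun m _ => ?_
    rw [Finset.sum_congr rfl (g := fun _ => scoef M m * ch ((m : ℝ) * x) / n) fun p hp => by
      rw [(Finset.mem_filter.1 hp).2], Finset.sum_const, nsmul_eq_mul, acoef, cnt]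
    ring
  · intro p hp
    simp only [Finset.mem_product, Finset.mem_range, Finset.mem_Ioo] at hp ⊢
    omega
  · intro m _ hm
    rw [← Int.not_even_iff_odd]
    intro he
    exact hm (by rw [acoef, scoef_even hM he, mul_zero, zero_mul])

lemma sum_wave_shift {n M d : ℕ} (hM : 0 < M) (hd : 0 < d) (x : ℝ) :
    ((∑ j ∈ range d, wave n M (x + (j : ℝ) / d) : ℝ) : ℂ) = d * part n M d x := by
  push_cast
  simp only [wave_expand hM]
  rw [Finset.sum_comm, part, Finset.sum_filter, Finset.mul_sum]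
  refine Finset.sum_congr rfl fun m _ => ?_
  simp only [mul_add, ch_add, ← Finset.mul_sum, grid hd]
  split_ifs <;> ring

lemma sum_range_mul (f : ℕ → ℝ) (d e : ℕ) :
    ∑ r ∈ range (d * e), f r = ∑ q ∈ range d, ∑ t ∈ range e, f (q * e + t) := by
  induction d with
  | zero => simp
  | succ d ih => rw [Nat.succ_mul, Finset.sum_range_add, ih, Finset.sum_range_succ]

lemma sum_ite_lt (d c : ℕ) (hc : c ≤ d) :
    ∑ q ∈ range d, (if q < c then (1 : ℝ) else -1) = 2 * c - d := by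
  have h : (range d).filter (fun q => q < c) = range c := by
    ext q; simp only [Finset.mem_filter, Finset.mem_range]; omega
  have h' := Finset.card_filter_add_card_filter_not (s := range d) (fun q => q < c)
  rw [h, Finset.card_range, Finset.card_range] at h'
  rw [Finset.sum_ite, h, Finset.sum_const, Finset.sum_const, Finset.card_range]
  have h'' : (((range d).filter fun q => ¬ q < c).card : ℝ) = d - c := by
    rw [eq_sub_iff_add_eq]; exact_mod_cast (by omega)
  rw [nsmul_eq_mul, nsmul_eq_mul, h'']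
  ring

lemma sign_sum {d f t : ℕ} (hd : Odd d) (ht : t < 2 * f) :
    |∑ q ∈ range d, sgnv (d * f) (q * (2 * f) + t)| ≤ 1 := by
  obtain ⟨p, rfl⟩ := hd
  have hiff : ∀ q : ℕ, (q * (2 * f) + t < (2 * p + 1) * f ↔ q < if t < f then p + 1 else p) := by
    intro q
    have h1 : q * (2 * f) = 2 * (q * f) := by ring
    have h2 : (2 * p + 1) * f = 2 * (p * f) + f := by ring
    rw [h1, h2]
    rcases lt_trichotomy q p with h | rfl | h
    · have : (q + 1) * f ≤ p * f := Nat.mul_le_mul_right f h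
      rw [Nat.succ_mul] at this
      split_ifs <;> omega
    · split_ifs <;> omega
    · have : (p + 1) * f ≤ q * f := Nat.mul_le_mul_right f h
      rw [Nat.succ_mul] at this
      split_ifs <;> omega
  simp only [sgnv, hiff]
  rw [sum_ite_lt _ _ (by split_ifs <;> omega)]
  split_ifs <;> push_cast <;> rw [abs_le] <;> constructor <;> linarith

/-- The kernel summed over a coset of the `d`-th parts. -/
def kcos (n d : ℕ) (y : ℝ) : ℝ := ∑ j ∈ range d, kern n (y + (j : ℝ) / d)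

lemma kcos_shift {n d : ℕ} (hd : 0 < d) (y : ℝ) (q : ℕ) :
    kcos n d (y - (q : ℝ) / d) = kcos n d y := by
  have hd' : (d : ℝ) ≠ 0 := Nat.cast_ne_zero.2 hd.ne'
  have step : ∀ z, kcos n d (z + 1 / d) = kcos n d z := by
    intro z
    have h1 := Finset.sum_range_succ' (fun j : ℕ => kern n (z + (j : ℝ) / d)) d
    rw [Finset.sum_range_succ] at h1
    have h2 : kern n (z + (d : ℝ) / d) = kern n z := by
      rw [div_self hd']
      simpa using kern_add_int n z 1
    simp only [Nat.cast_zero, zero_div, add_zero, h2] at h1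
    unfold kcos
    rw [show ∑ j ∈ range d, kern n (z + 1 / d + (j : ℝ) / d) =
      ∑ j ∈ range d, kern n (z + ((j + 1 : ℕ) : ℝ) / d) from
      Finset.sum_congr rfl fun j _ => by push_cast; ring_nf]
    linarith
  induction q with
  | zero => simp
  | succ q ih => rw [← step, ← ih]; congr 1; push_cast; ring

lemma sum_kcos {n d e : ℕ} (hn0 : 0 < n) (hd : 0 < d) (he : 0 < e) (hn : n ≤ d * e) (x : ℝ) :
    ∑ t ∈ range e, kcos n d (x - (t : ℝ) / (d * e : ℕ)) = (d * e : ℕ) := by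
  have hterm : ∀ (m : ℤ), -(n : ℤ) < m → m < n →
      ∑ t ∈ range e, ∑ j ∈ range d, ch ((m : ℝ) * (x - (t : ℝ) / (d * e : ℕ) + (j : ℝ) / d)) =
        if m = 0 then ((d * e : ℕ) : ℂ) else 0 := by
    intro m h1 h2
    split_ifs with hm
    · subst hm; simp [ch_zero, mul_comm]
    · simp only [mul_add, ch_add, ← Finset.mul_sum, grid hd]
      split_ifs with hdm
      · obtain ⟨m', rfl⟩ := hdm
        rw [← Finset.sum_mul, Finset.sum_congr rfl (g := fun t : ℕ =>
          ch ((((d : ℤ) * m' : ℤ) : ℝ) * x) * ch (((-m' : ℤ) : ℝ) * ((t : ℕ) / e))),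
          ← Finset.mul_sum, grid he, if_neg, mul_zero, zero_mul]
        · intro hdvd
          have hdvd' : ((d * e : ℕ) : ℤ) ∣ (d : ℤ) * m' := by
            push_cast; exact mul_dvd_mul_left _ (by simpa using hdvd)
          exact hm (Int.eq_zero_of_abs_lt_dvd hdvd' (abs_lt.2 ⟨by omega, by omega⟩))
        · intro t _
          rw [← ch_add]
          congr 1
          have : (d : ℝ) ≠ 0 := Nat.cast_ne_zero.2 hd.ne'
          have : (e : ℝ) ≠ 0 := Nat.cast_ne_zero.2 he.ne'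
          push_cast; field_simp; ring
      · simp
  have h : ((∑ t ∈ range e, kcos n d (x - (t : ℝ) / (d * e : ℕ)) : ℝ) : ℂ) * n =
      ((d * e : ℕ) : ℂ) * n := by
    simp only [kcos, Complex.ofReal_sum, kern_expand, Finset.sum_mul]
    rw [Finset.sum_congr rfl fun t _ => Finset.sum_congr rfl fun j _ =>
      div_mul_cancel₀ _ (Nat.cast_ne_zero.2 hn0.ne')]
    rw [Finset.sum_congr rfl fun t _ => Finset.sum_comm, Finset.sum_comm]
    rw [Finset.sum_congr rfl fun p hp => hterm _ ?_ ?_]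
    · rw [Finset.sum_product, Finset.sum_congr rfl (g := fun _ => ((d * e : ℕ) : ℂ))]
      · simp; ring
      · intro k hk
        rw [Finset.sum_eq_single k]
        · simp
        · intro l _ hl
          exact if_neg fun h => hl (by omega)
        · intro h; exact absurd hk h
    all_goals (simp only [Finset.mem_product, Finset.mem_range] at hp; omega)
  exact_mod_cast mul_right_cancel₀ (Nat.cast_ne_zero.2 hn0.ne') h

lemma part_bound {n f d : ℕ} (hn0 : 0 < n) (hd : Odd d) (hf : 0 < f) (hn : n ≤ 2 * (d * f))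
    (x : ℝ) : ‖part n (d * f) d x‖ ≤ 1 / d := by
  have hd0 : 0 < d := hd.pos
  have hM : 0 < d * f := Nat.mul_pos hd0 hf
  have hL : 2 * (d * f) = d * (2 * f) := by ring
  set T := ∑ j ∈ range d, wave n (d * f) (x + (j : ℝ) / d) with hT
  have hbound : |T| ≤ 1 := by
    have hTeq : T = (∑ t ∈ range (2 * f), (∑ q ∈ range d, sgnv (d * f) (q * (2 * f) + t)) *
        kcos n d (x - (t : ℝ) / (d * (2 * f) : ℕ))) / (d * (2 * f) : ℕ) := by
      simp only [hT, wave, hL, ← Finset.sum_div]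
      congr 1
      simp only [sum_range_mul _ d (2 * f)]
      rw [Finset.sum_congr rfl fun j _ => Finset.sum_comm, Finset.sum_comm]
      refine Finset.sum_congr rfl fun t _ => ?_
      rw [Finset.sum_comm, Finset.sum_mul]
      refine Finset.sum_congr rfl fun q _ => ?_
      rw [← Finset.mul_sum, ← kcos_shift hd0 _ q, kcos]
      congr 1
      refine Finset.sum_congr rfl fun j _ => congrArg (kern n) ?_
      have : (d : ℝ) ≠ 0 := Nat.cast_ne_zero.2 hd0.ne'
      have : (f : ℝ) ≠ 0 := Nat.cast_ne_zero.2 hf.ne'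
      push_cast; field_simp; ring
    have hpos : (0 : ℝ) < (d * (2 * f) : ℕ) := by rw [← hL]; exact_mod_cast (by omega)
    rw [hTeq, abs_div, abs_of_pos hpos, div_le_one hpos]
    refine (Finset.abs_sum_le_sum_abs _ _).trans
      (le_of_le_of_eq ?_ (sum_kcos hn0 hd0 (by omega : 0 < 2 * f) (hL ▸ hn) x))
    refine Finset.sum_le_sum fun t ht => ?_
    have hk : 0 ≤ kcos n d (x - (t : ℝ) / (d * (2 * f) : ℕ)) :=
      Finset.sum_nonneg fun j _ => kern_nonneg _ _
    rw [abs_mul, abs_of_nonneg hk]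
    exact mul_le_of_le_one_left hk (sign_sum hd (Finset.mem_range.1 ht))
  have h := congrArg (fun z : ℂ => ‖z‖) (sum_wave_shift (n := n) hM hd0 x)
  simp only [norm_mul, Complex.norm_natCast, Complex.norm_real, Real.norm_eq_abs] at h
  rw [le_div_iff₀ (Nat.cast_pos.2 hd0), mul_comm, ← h]
  exact hbound

/-- Many odd frequencies carry almost all of the energy. -/
lemma odd_inv_sq (δ : ℝ) (hδ : 0 < δ) :
    ∃ N : ℕ, 1 - δ ≤ 8 / Real.pi ^ 2 * ∑ i ∈ range N, 1 / ((2 * i + 1 : ℕ) : ℝ) ^ 2 := by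
  set f : ℕ → ℝ := fun n => 1 / (n : ℝ) ^ 2 with hf
  have hall : HasSum f (Real.pi ^ 2 / 6) := hasSum_zeta_two
  have heven : HasSum (fun k => f (2 * k)) (1 / 4 * (Real.pi ^ 2 / 6)) := by
    refine (hall.mul_left (1 / 4)).congr_fun fun k => ?_
    simp only [hf]
    push_cast
    rw [mul_pow]; ring
  have hodd : Summable (fun k => f (2 * k + 1)) :=
    hall.summable.comp_injective fun a b h => by simpa using h
  have htot := (heven.even_add_odd hodd.hasSum).unique hall
  have hval : ∑' k, f (2 * k + 1) = Real.pi ^ 2 / 8 := by linarith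
  have hlim := (hodd.hasSum.tendsto_sum_nat).const_mul (8 / Real.pi ^ 2)
  rw [hval, show 8 / Real.pi ^ 2 * (Real.pi ^ 2 / 8) = 1 by field_simp] at hlim
  obtain ⟨N, hN⟩ := (hlim.eventually (eventually_ge_nhds (by linarith : 1 - δ < 1))).exists
  exact ⟨N, by simpa [hf] using hN⟩

lemma wave_energy {δ : ℝ} (hδ : 0 < δ) :
    ∃ n : ℕ, 0 < n ∧ ∀ M : ℕ, 0 < M → 1 - 3 * δ ≤ ∑ m ∈ freqs n, ‖acoef n M m‖ ^ 2 := by
  rcases le_or_gt (1 : ℝ) δ with h1 | h1
  · exact ⟨1, one_pos, fun M _ => le_trans (by linarith)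
      (Finset.sum_nonneg fun m _ => sq_nonneg _)⟩
  obtain ⟨N, hN⟩ := odd_inv_sq δ hδ
  obtain ⟨n, hn1, hn2⟩ : ∃ n : ℕ, 2 * N + 1 ≤ n ∧ (2 * N : ℕ) ≤ δ * n := by
    obtain ⟨n, hn⟩ := exists_nat_ge ((2 * N : ℕ) / δ)
    refine ⟨n + (2 * N + 1), by omega, ?_⟩
    rw [div_le_iff₀ hδ] at hn
    push_cast at hn ⊢
    nlinarith
  refine ⟨n, by omega, fun M hM => ?_⟩
  have hn0 : (0 : ℝ) < n := Nat.cast_pos.2 (by omega)
  set s := (range N).image fun i => ((2 * i + 1 : ℕ) : ℤ) with hs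
  set s' := (range N).image fun i => -((2 * i + 1 : ℕ) : ℤ) with hs'
  have hdis : Disjoint s s' := by
    rw [Finset.disjoint_left]
    intro m h h'
    simp only [hs, hs', Finset.mem_image] at h h'
    obtain ⟨i, -, rfl⟩ := h
    obtain ⟨j, -, hj⟩ := h'
    omega
  have hsub : s ∪ s' ⊆ freqs n := by
    intro m hm
    simp only [hs, hs', Finset.mem_union, Finset.mem_image, Finset.mem_range] at hm
    simp only [freqs, Finset.mem_filter, Finset.mem_Ioo, Int.odd_iff]
    rcases hm with ⟨i, hi, rfl⟩ | ⟨i, hi, rfl⟩ <;> omega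
  refine le_trans ?_ (Finset.sum_le_sum_of_subset_of_nonneg hsub fun m _ _ => sq_nonneg _)
  rw [Finset.sum_union hdis, hs, hs', Finset.sum_image (fun a _ b _ h => by simpa using h),
    Finset.sum_image (fun a _ b _ h => by simpa using h)]
  simp only [acoef_neg, Complex.norm_conj]
  have hterm : ∀ i ∈ range N, (1 - δ) ^ 2 * (4 / Real.pi ^ 2) *
      (1 / ((2 * i + 1 : ℕ) : ℝ) ^ 2) ≤ ‖acoef n M ((2 * i + 1 : ℕ) : ℤ)‖ ^ 2 := by
    intro i hi
    rw [Finset.mem_range] at hi
    have hc := le_cnt n (2 * i + 1)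
    have hi2 : ((2 * i + 1 : ℕ) : ℝ) ≤ (2 * N : ℕ) := Nat.cast_le.2 (by omega)
    have h2 : 1 - δ ≤ (cnt n ((2 * i + 1 : ℕ) : ℤ) : ℝ) / n := by
      rw [le_div_iff₀ hn0]
      have : (n : ℝ) ≤ cnt n ((2 * i + 1 : ℕ) : ℤ) + ((2 * i + 1 : ℕ) : ℝ) := by exact_mod_cast hc
      linarith
    have h3 := scoef_odd hM (m := ((2 * i + 1 : ℕ) : ℤ)) (by rw [Int.odd_iff]; omega)
    rw [Int.cast_natCast, Nat.abs_cast] at h3
    have h4 : (1 - δ) * (2 / (Real.pi * ((2 * i + 1 : ℕ) : ℝ))) ≤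
        ‖acoef n M ((2 * i + 1 : ℕ) : ℤ)‖ := by
      rw [acoef, norm_mul, norm_div, Complex.norm_natCast, Complex.norm_natCast]
      exact mul_le_mul h2 h3 (by positivity) (by positivity)
    refine le_trans (le_of_eq ?_)
      (pow_le_pow_left₀ (mul_nonneg (by linarith) (by positivity)) h4 2)
    rw [mul_pow, div_pow, mul_pow]
    ring
  have hsum := Finset.sum_le_sum hterm
  rw [← Finset.mul_sum] at hsum
  have h5 : (1 - δ) ^ 2 * (1 - δ) ≤ (1 - δ) ^ 2 *
      (8 / Real.pi ^ 2 * ∑ i ∈ range N, 1 / ((2 * i + 1 : ℕ) : ℝ) ^ 2) :=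
    mul_le_mul_of_nonneg_left hN (sq_nonneg _)
  rw [show (8 : ℝ) / Real.pi ^ 2 = 2 * (4 / Real.pi ^ 2) by ring] at h5
  nlinarith [sq_nonneg δ]

/-- The nonnegative greatest common divisor of the entries. -/
def gN {R : ℕ} (m : Fin R → ℤ) : ℕ := (Finset.univ.gcd m).natAbs

lemma dvd_gN {R : ℕ} (m : Fin R → ℤ) (d : ℕ) : d ∣ gN m ↔ ∀ l, (d : ℤ) ∣ m l := by
  rw [gN, ← Int.natCast_dvd, Finset.dvd_gcd_iff]
  simp

lemma gN_neg {R : ℕ} (m : Fin R → ℤ) : gN (-m) = gN m := by
  refine Nat.dvd_antisymm ?_ ?_ <;> rw [dvd_gN] <;> intro l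
  · exact dvd_neg.1 ((dvd_gN (-m) _).1 dvd_rfl l)
  · exact dvd_neg.2 ((dvd_gN m _).1 dvd_rfl l)

lemma gN_cert {R : ℕ} {m : Fin R → ℤ} (h : gN m = 1) : ∃ ξ : Fin R → ℤ, ∑ l, m l * ξ l = 1 := by
  obtain ⟨g, hg⟩ := Finset.gcd_eq_sum_mul (Finset.univ : Finset (Fin R)) m
  rcases Int.natAbs_eq (Finset.univ.gcd m) with e | e <;> rw [show (Finset.univ.gcd m).natAbs = 1
    from h, Nat.cast_one] at e
  · exact ⟨g, by rw [← hg, e]⟩
  · refine ⟨-g, ?_⟩
    simp only [Pi.neg_apply, mul_neg, Finset.sum_neg_distrib, ← hg, e, neg_neg]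

lemma moebius_sum (k : ℕ) :
    ∑ i ∈ k.divisors, ArithmeticFunction.moebius i = if k = 1 then 1 else 0 := by
  rw [← ArithmeticFunction.coe_mul_zeta_apply (f := ArithmeticFunction.moebius),
    ArithmeticFunction.moebius_mul_coe_zeta, ArithmeticFunction.one_apply]

end Vale.Agent.P110.Full.SquareWave

namespace Vale.Agent.P110.Full

open Finset SquareWave
open scoped ComplexConjugate

theorem square : SquareStatement := by
  intro ε hε
  set e := min ε (1 / 2) with he
  have he0 : 0 < e := lt_min hε (by norm_num)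
  obtain ⟨R0, hR0⟩ := exists_pow_lt_of_lt_one (by positivity : (0 : ℝ) < e / 20)
    (by norm_num : (3 / 4 : ℝ) < 1)
  obtain ⟨R, hR⟩ : ∃ R, R = R0 + 2 := ⟨_, rfl⟩
  set θ : ℝ := 2 * (1 / 3) ^ (R - 2) with hθ
  have hsmallpow : (3 / 4 : ℝ) ^ R0 < e / 20 := hR0
  have hθle : θ ≤ e / 10 := by
    rw [hθ, show R - 2 = R0 by omega]
    have : (1 / 3 : ℝ) ^ R0 ≤ (3 / 4) ^ R0 := pow_le_pow_left₀ (by norm_num) (by norm_num) _
    linarith
  have hθ0 : 0 ≤ θ := by positivity
  set δ : ℝ := e / (30 * R) with hδdef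
  have hR0' : (0 : ℝ) < R := by rw [hR]; positivity
  have hδ : 0 < δ := by positivity
  obtain ⟨n, hn0, henergy⟩ := wave_energy hδ
  set M := n.factorial with hMdef
  have hM : 0 < M := Nat.factorial_pos n
  have hpart : ∀ d : ℕ, Odd d → d ≤ n → ∀ x, ‖part n M d x‖ ≤ 1 / d := by
    intro d hd hdn x
    obtain ⟨f, hf⟩ : d ∣ M := Nat.dvd_factorial hd.pos hdn
    rw [hf]
    have h1 : n ≤ M := Nat.self_le_factorial n
    exact part_bound hn0 hd (Nat.pos_of_mul_pos_left (hf ▸ hM)) (by omega) x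
  -- the tensor product
  set a := acoef n M with ha
  set cF : (Fin R → ℤ) → ℂ := fun m => ∏ l, a (m l) with hcF
  set sub : ℕ → Finset ℤ := fun d => (freqs n).filter (fun m => (d : ℤ) ∣ m) with hsub
  set Pz := Fintype.piFinset fun _ : Fin R => freqs n with hPz
  set prim := Pz.filter (fun m => gN m = 1) with hprim
  set D := (range (n + 1)).filter fun d => Odd d with hD
  have hg : ∀ m ∈ Pz, gN m ≠ 0 ∧ D.filter (fun d => d ∣ gN m) = (gN m).divisors := by
    intro m hm
    rw [hPz, Fintype.mem_piFinset] at hm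
    have l0 : Fin R := ⟨0, by omega⟩
    obtain ⟨hI, ho⟩ := Finset.mem_filter.1 (hm l0)
    rw [Finset.mem_Ioo] at hI
    rw [Int.odd_iff] at ho
    have hne : m l0 ≠ 0 := by omega
    have hdvd : gN m ∣ (m l0).natAbs := Int.natCast_dvd.1 ((dvd_gN m _).1 dvd_rfl l0)
    have hg0 : gN m ≠ 0 := fun h => by rw [h] at hdvd; simp [hne] at hdvd
    refine ⟨hg0, ?_⟩
    ext d
    simp only [hD, Finset.mem_filter, Finset.mem_range, Nat.mem_divisors]
    refine ⟨fun h => ⟨h.2, hg0⟩, fun h => ⟨⟨?_, ?_⟩, h.1⟩⟩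
    · have := Nat.le_of_dvd (Nat.pos_of_ne_zero hg0) h.1
      have := Nat.le_of_dvd (by omega) hdvd
      omega
    · exact (Nat.odd_iff.2 (by omega : (m l0).natAbs % 2 = 1)).of_dvd_nat (h.1.trans hdvd)
  have hpi : ∀ d, Pz.filter (fun m => d ∣ gN m) = Fintype.piFinset fun _ => sub d := by
    intro d
    ext m
    simp only [hPz, hsub, Finset.mem_filter, Fintype.mem_piFinset, dvd_gN]
    exact ⟨fun h l => ⟨h.1 l, h.2 l⟩, fun h => ⟨fun l => (h l).1, fun l => (h l).2⟩⟩
  -- Möbius inversion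
  have hmoeb : ∀ X : (Fin R → ℤ) → ℂ, ∑ m ∈ prim, X m =
      ∑ d ∈ D, (ArithmeticFunction.moebius d : ℂ) *
        ∑ m ∈ Fintype.piFinset (fun _ => sub d), X m := by
    intro X
    simp only [← hpi, Finset.mul_sum, Finset.sum_filter]
    rw [Finset.sum_comm, hprim, Finset.sum_filter]
    refine Finset.sum_congr rfl fun m hm => ?_
    simp only [mul_ite, mul_zero]
    rw [← Finset.sum_filter, (hg m hm).2, ← Finset.sum_mul, ← Int.cast_sum, moebius_sum]
    split_ifs <;> simp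
  have hD1 : 1 ∈ D := by
    simp only [hD, Finset.mem_filter, Finset.mem_range]; exact ⟨by omega, odd_one⟩
  have htail : ∑ d ∈ D.erase 1, ((1 : ℝ) / d) ^ R ≤ θ := by
    have h1 : ∀ d ∈ D.erase 1, ((1 : ℝ) / d) ^ R ≤ (1 / 3) ^ (R - 2) * ((d : ℝ) ^ 2)⁻¹ := by
      intro d hd
      simp only [hD, Finset.mem_erase, Finset.mem_filter] at hd
      have h3 : 3 ≤ d := by obtain ⟨p, rfl⟩ := hd.2.2; omega
      obtain ⟨q, hq⟩ : ∃ q, R = q + 2 := ⟨R0, hR⟩
      rw [hq, pow_add, Nat.add_sub_cancel, one_div_pow (d : ℝ) 2, one_div ((d : ℝ) ^ 2)]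
      refine mul_le_mul_of_nonneg_right (pow_le_pow_left₀ (by positivity) ?_ _) (by positivity)
      exact one_div_le_one_div_of_le (by norm_num) (by exact_mod_cast h3)
    have h2 : D.erase 1 ⊆ Finset.Ioo 0 (n + 1) := by
      intro d hd
      simp only [hD, Finset.mem_erase, Finset.mem_filter, Finset.mem_range] at hd
      have := hd.2.2.pos
      exact Finset.mem_Ioo.2 ⟨this, hd.2.1⟩
    have h3 : ∑ d ∈ D.erase 1, ((d : ℝ) ^ 2)⁻¹ ≤ 2 :=
      le_trans (Finset.sum_le_sum_of_subset_of_nonneg h2 fun i _ _ => by positivity)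
        (le_of_le_of_eq (sum_Ioo_inv_sq_le 0 (n + 1)) (by norm_num))
    refine (Finset.sum_le_sum h1).trans ?_
    rw [← Finset.mul_sum, hθ]
    calc _ ≤ (1 / 3 : ℝ) ^ (R - 2) * 2 := mul_le_mul_of_nonneg_left h3 (by positivity)
      _ = _ := by ring
  have hchm : ∀ (m : Fin R → ℤ) (φ : Fin R → ℝ),
      cF m * ch (∑ l, (m l : ℝ) * φ l) = ∏ l, a (m l) * ch ((m l : ℝ) * φ l) := by
    intro m φ
    rw [hcF, ch_sum, Finset.prod_mul_distrib]
  have hsup : ∀ φ : Fin R → ℝ,
      ‖∑ m ∈ prim, cF m * ch (∑ l, (m l : ℝ) * φ l)‖ ≤ 1 + θ := by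
    intro φ
    rw [hmoeb]
    refine (norm_sum_le _ _).trans ?_
    have hterm : ∀ d ∈ D, ‖(ArithmeticFunction.moebius d : ℂ) *
        ∑ m ∈ Fintype.piFinset (fun _ => sub d), cF m * ch (∑ l, (m l : ℝ) * φ l)‖ ≤
        ((1 : ℝ) / d) ^ R := by
      intro d hd
      simp only [hchm]
      rw [← Finset.prod_univ_sum (fun _ : Fin R => sub d)
        (fun l x => a x * ch ((x : ℝ) * φ l)), norm_mul, norm_prod]
      have h1 : ‖(ArithmeticFunction.moebius d : ℂ)‖ ≤ 1 := by
        rw [Complex.norm_intCast]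
        exact_mod_cast ArithmeticFunction.abs_moebius_le_one
      refine (mul_le_of_le_one_left (Finset.prod_nonneg fun l _ => norm_nonneg _) h1).trans ?_
      simp only [hD, Finset.mem_filter, Finset.mem_range] at hd
      refine (Finset.prod_le_prod (fun l _ => norm_nonneg _)
        fun l _ => hpart d hd.2 (by omega) (φ l)).trans ?_
      simp
    refine (Finset.sum_le_sum hterm).trans ?_
    rw [← Finset.add_sum_erase _ _ hD1]
    simp only [Nat.cast_one, div_one, one_pow]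
    linarith
  -- energy
  have hpars : ∀ d : ℕ, Odd d → d ≤ n → ∑ m ∈ sub d, ‖a m‖ ^ 2 ≤ ((1 : ℝ) / d) ^ 2 :=
    fun d hd hdn => parseval (fun m hm => (Finset.mem_filter.1 (Finset.mem_filter.1 hm).1).1) a
      (hpart d hd hdn)
  have hnorm : ∀ d, ∑ m ∈ Fintype.piFinset (fun _ : Fin R => sub d), ‖cF m‖ ^ 2 =
      (∑ m ∈ sub d, ‖a m‖ ^ 2) ^ R := by
    intro d
    simp only [hcF, norm_prod, ← Finset.prod_pow]
    rw [← Finset.prod_univ_sum (fun _ : Fin R => sub d) (fun _ x => ‖a x‖ ^ 2)]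
    simp
  have hlow : 1 - 3 * R * δ - θ ≤ ∑ m ∈ prim, ‖cF m‖ ^ 2 := by
    have hpt : ∀ m ∈ Pz, ‖cF m‖ ^ 2 ≤ (if gN m = 1 then ‖cF m‖ ^ 2 else 0) +
        ∑ d ∈ D.erase 1, if d ∣ gN m then ‖cF m‖ ^ 2 else 0 := by
      intro m hm
      have hnn : 0 ≤ ∑ d ∈ D.erase 1, if d ∣ gN m then ‖cF m‖ ^ 2 else 0 :=
        Finset.sum_nonneg fun d _ => by split_ifs <;> positivity
      split_ifs with h1
      · linarith
      · have hmem : gN m ∈ D.erase 1 := Finset.mem_erase.2 ⟨h1, by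
          have := Nat.mem_divisors_self (gN m) (hg m hm).1
          rw [← (hg m hm).2] at this
          exact (Finset.mem_filter.1 this).1⟩
        have := Finset.single_le_sum (f := fun d => if d ∣ gN m then ‖cF m‖ ^ 2 else 0)
          (fun d _ => by split_ifs <;> positivity) hmem
        simp only [dvd_rfl, if_true] at this
        linarith
    have h1 := Finset.sum_le_sum hpt
    rw [Finset.sum_add_distrib, ← Finset.sum_filter, ← hprim, Finset.sum_comm] at h1
    simp only [← Finset.sum_filter, hpi, hnorm] at h1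
    have h2 : ∑ d ∈ D.erase 1, (∑ m ∈ sub d, ‖a m‖ ^ 2) ^ R ≤ θ := by
      refine le_trans (Finset.sum_le_sum fun d hd => ?_) htail
      simp only [hD, Finset.mem_erase, Finset.mem_filter, Finset.mem_range] at hd
      refine pow_le_pow_left₀ (Finset.sum_nonneg fun m _ => sq_nonneg _)
        ((hpars d hd.2.2 (by omega)).trans ?_) _
      have : (1 : ℝ) / d ≤ 1 :=
        div_le_one_of_le₀ (by exact_mod_cast hd.2.2.pos) (Nat.cast_nonneg d)
      exact pow_le_of_le_one (by positivity) this two_ne_zero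
    have h3 : Pz = Fintype.piFinset fun _ : Fin R => sub 1 := by simp [hPz, hsub]
    rw [h3, hnorm] at h1
    have h4 : (1 - 3 * δ) ^ R ≤ (∑ m ∈ sub 1, ‖a m‖ ^ 2) ^ R := by
      refine pow_le_pow_left₀ ?_ (by simpa [hsub] using henergy M hM) _
      have : δ ≤ 1 / 3 := by
        rw [hδdef, div_le_iff₀ (by positivity)]
        have : (1 : ℝ) ≤ R := by exact_mod_cast (by omega : 1 ≤ R)
        have : e ≤ 1 / 2 := min_le_right _ _
        nlinarith
      linarith
    have h5 := one_add_mul_le_pow (a := -(3 * δ)) (by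
      have : δ ≤ 2 / 3 := by
        rw [hδdef, div_le_iff₀ (by positivity)]
        have : (1 : ℝ) ≤ R := by exact_mod_cast (by omega : 1 ≤ R)
        have : e ≤ 1 / 2 := min_le_right _ _
        linarith
      linarith) R
    rw [← sub_eq_add_neg] at h5
    linarith
  -- representatives up to sign
  set pos := prim.filter (fun m => 0 < m ⟨0, by omega⟩ ∧ cF m ≠ 0) with hpos
  have hneg : ∀ m, m ∈ prim → -m ∈ prim := by
    intro m hm
    simp only [hprim, hPz, Finset.mem_filter, Fintype.mem_piFinset, gN_neg] at hm ⊢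
    refine ⟨fun l => ?_, hm.2⟩
    have := hm.1 l
    simp only [freqs, Finset.mem_filter, Finset.mem_Ioo, Pi.neg_apply, odd_neg] at this ⊢
    exact ⟨⟨by omega, by omega⟩, this.2⟩
  have hcneg : ∀ m, cF (-m) = conj (cF m) := by
    intro m; simp [hcF, ha, acoef_neg, map_prod]
  have hsplit : ∀ X : (Fin R → ℤ) → ℂ, (∀ m, cF m = 0 → X m = 0) →
      ∑ m ∈ prim, X m = ∑ m ∈ pos, (X m + X (-m)) := by
    intro X hX
    rw [← Finset.sum_filter_add_sum_filter_not prim (fun m => 0 < m ⟨0, by omega⟩),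
      Finset.sum_add_distrib]
    congr 1
    · rw [hpos, ← Finset.filter_filter]
      exact (Finset.sum_filter_of_ne (p := fun m => cF m ≠ 0)
        fun m _ h => fun h' => h (hX m h')).symm
    · rw [hpos, ← Finset.filter_filter,
        Finset.sum_filter_of_ne (p := fun m => cF m ≠ 0)
          fun m _ h => fun h' => h (hX (-m) (by rw [hcneg, h', map_zero]))]
      refine Finset.sum_nbij' (fun m => -m) (fun m => -m) ?_ ?_ (fun m _ => neg_neg m)
        (fun m _ => neg_neg m) (fun m _ => by rw [neg_neg])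
      · intro m hm
        simp only [Finset.mem_filter] at hm ⊢
        refine ⟨hneg m hm.1, ?_⟩
        have := (Finset.mem_filter.1 (Fintype.mem_piFinset.1 (Finset.mem_filter.1 hm.1).1
          ⟨0, by omega⟩)).2
        rw [Int.odd_iff] at this
        simp only [Pi.neg_apply]
        omega
      · intro m hm
        simp only [Finset.mem_filter] at hm ⊢
        refine ⟨hneg m hm.1, ?_⟩
        simp only [Pi.neg_apply]
        omega
  set s : ℝ := (1 + θ)⁻¹ with hs
  have hs0 : 0 < s := by positivity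
  have hs1 : s ≤ 1 := inv_le_one_of_one_le₀ (by linarith)
  let E := (Finset.equivFin pos).symm
  have hre : ∀ φ : Fin R → ℝ,
      ∑ m ∈ pos, 2 * ((s : ℂ) * cF m * ch (∑ l, (m l : ℝ) * φ l)).re =
        s * (∑ m ∈ prim, cF m * ch (∑ l, (m l : ℝ) * φ l)).re := by
    intro φ
    rw [hsplit _ (fun m h => by rw [h, zero_mul]), Complex.re_sum, Finset.mul_sum]
    refine Finset.sum_congr rfl fun m _ => ?_
    have hc : cF (-m) * ch (∑ l, ((-m) l : ℝ) * φ l) =
        conj (cF m * ch (∑ l, (m l : ℝ) * φ l)) := by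
      rw [hcneg, map_mul, conj_ch]
      simp [Finset.sum_neg_distrib]
    rw [hc, Complex.add_re, Complex.conj_re, mul_assoc (s : ℂ), Complex.re_ofReal_mul]
    ring
  have hen : 1 - e ≤ ∑ m ∈ pos, 2 * ‖(s : ℂ) * cF m‖ ^ 2 := by
    have h1 := hsplit (fun m => ((‖cF m‖ ^ 2 : ℝ) : ℂ)) (fun m h => by simp [h])
    simp only [hcneg, Complex.norm_conj, ← Complex.ofReal_add, ← Complex.ofReal_sum,
      Complex.ofReal_inj] at h1
    have h2 : ∑ m ∈ pos, 2 * ‖(s : ℂ) * cF m‖ ^ 2 = s ^ 2 * ∑ m ∈ prim, ‖cF m‖ ^ 2 := by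
      rw [h1, Finset.mul_sum]
      refine Finset.sum_congr rfl fun m _ => ?_
      rw [norm_mul, Complex.norm_real, Real.norm_eq_abs, abs_of_pos hs0]
      ring
    have h3 : 3 * R * δ = e / 10 := by rw [hδdef]; field_simp; ring
    have h4 : 1 - 2 * θ ≤ s ^ 2 := by
      have : 1 - θ ≤ s := by
        rw [hs, ← one_div, le_div_iff₀ (by linarith)]
        nlinarith
      nlinarith
    rw [h2]
    have h5 : (1 - 2 * θ) * (1 - 3 * R * δ - θ) ≤ s ^ 2 * ∑ m ∈ prim, ‖cF m‖ ^ 2 := by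
      have he2 : e ≤ 1 / 2 := min_le_right _ _
      exact mul_le_mul h4 hlow (by linarith) (sq_nonneg _)
    nlinarith
  have hmem : ∀ i, (E i : Fin R → ℤ) ∈ pos := fun i => (E i).2
  refine ⟨⟨R, by omega, pos.card, ?_, fun i => (E i).1, fun i => (s : ℂ) * cF (E i).1,
    fun i => ?_, fun i => ?_, fun i j hij => ⟨?_, ?_⟩, fun φ => ?_, ?_, fun i => ?_⟩⟩
  · rw [Finset.card_pos, Finset.nonempty_iff_ne_empty]
    intro h
    rw [h, Finset.sum_empty] at hen
    have : e ≤ 1 / 2 := min_le_right _ _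
    linarith
  · exact mul_ne_zero (Complex.ofReal_ne_zero.2 hs0.ne') (Finset.mem_filter.1 (hmem i)).2.2
  · exact gN_cert (Finset.mem_filter.1 (Finset.mem_filter.1 (hmem i)).1).2
  · exact fun h => hij (E.injective (Subtype.ext h))
  · intro h
    have h1 := (Finset.mem_filter.1 (hmem i)).2.1
    have h2 := (Finset.mem_filter.1 (hmem j)).2.1
    have h3 := congrFun h ⟨0, by omega⟩
    simp only [Pi.neg_apply] at h3
    omega
  · rw [Equiv.sum_comp E (fun m : {m // m ∈ pos} =>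
      2 * ((s : ℂ) * cF m.1 * ch (∑ l, (m.1 l : ℝ) * φ l)).re),
      Finset.sum_coe_sort pos (fun m => 2 * ((s : ℂ) * cF m * ch (∑ l, (m l : ℝ) * φ l)).re),
      hre, abs_mul, abs_of_pos hs0]
    calc s * |_| ≤ s * (1 + θ) :=
        mul_le_mul_of_nonneg_left ((Complex.abs_re_le_norm _).trans (hsup φ)) hs0.le
      _ = 1 := inv_mul_cancel₀ (by linarith)
  · rw [Equiv.sum_comp E (fun m : {m // m ∈ pos} => 2 * ‖(s : ℂ) * cF m.1‖ ^ 2),
      Finset.sum_coe_sort pos (fun m => 2 * ‖(s : ℂ) * cF m‖ ^ 2)]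
    exact le_trans (by linarith [min_le_left ε (1 / 2)]) hen
  · have hm := Fintype.mem_piFinset.1
      (Finset.mem_filter.1 (Finset.mem_filter.1 (hmem i)).1).1
    have hall : ∀ x ∈ freqs n, ‖a x‖ ≤ 3 / 4 := by
      intro x hx
      have h1 := hpars 1 odd_one hn0
      have hxne : x ≠ -x := by
        have := (Finset.mem_filter.1 hx).2; rw [Int.odd_iff] at this; omega
      have hx' : -x ∈ freqs n := by
        simp only [freqs, Finset.mem_filter, Finset.mem_Ioo, odd_neg] at hx ⊢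
        exact ⟨⟨by omega, by omega⟩, hx.2⟩
      have h2 := Finset.sum_le_sum_of_subset_of_nonneg (f := fun m => ‖a m‖ ^ 2)
        (s := {x, -x}) (t := sub 1) (by
          intro y hy
          simp only [Finset.mem_insert, Finset.mem_singleton] at hy
          rcases hy with rfl | rfl <;> simp [hsub, hx, hx']) (fun _ _ _ => sq_nonneg _)
      rw [Finset.sum_pair hxne] at h2
      simp only [ha, acoef_neg, Complex.norm_conj] at h2 h1 ⊢
      simp only [Nat.cast_one, div_one, one_pow] at h1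
      nlinarith [norm_nonneg (acoef n M x)]
    rw [norm_mul, Complex.norm_real, Real.norm_eq_abs, abs_of_pos hs0, hcF, norm_prod]
    refine le_trans (mul_le_of_le_one_left (Finset.prod_nonneg fun l _ => norm_nonneg _) hs1) ?_
    refine (Finset.prod_le_prod (fun l _ => norm_nonneg _)
      fun l _ => hall _ (hm l)).trans ?_
    rw [Finset.prod_const, Finset.card_univ, Fintype.card_fin]
    have : (3 / 4 : ℝ) ^ R ≤ (3 / 4) ^ R0 :=
      pow_le_pow_of_le_one (by norm_num) (by norm_num) (by omega)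
    have := min_le_left ε (1 / 2)
    linarith

end Vale.Agent.P110.Full
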